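import Vale.Agent.P286.H847.Ten

/-!
# Modules over the exterior algebra

An object of `LM n` is a graded differential space with anticommuting operators `e i`, `i : Fin n`,
of degree `-(4 i + 3)`, which anticommute with the differential.
-/

namespace Vale.Agent.P286.H64

open TensorProduct
open Vale.Agent.P286.H847 (GD SGD)
open Vale.Agent.P286.H847.SGD

noncomputable section

/-- A graded differential space with anticommuting operators `e i` of degree `-(4 i + 3)`. -/
structure LM (n : ℕ) extends GD where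
  e : Fin n → V →ₗ[ℂ] V
  e_e : ∀ i j x, e i (e j x) = - e j (e i x)
  e_d : ∀ i x, e i (d x) = - d (e i x)
  e_gr : ∀ (i : Fin n) (m : ℤ) (x : V), x ∈ gr m → e i x ∈ gr (m - (4 * (i : ℤ) + 3))

namespace LM

variable {n : ℕ}

theorem e_sq (N : LM n) (i : Fin n) (x : N.V) : N.e i (N.e i x) = 0 := by
  have h := N.e_e i i x
  have h1 : (2 : ℂ) • N.e i (N.e i x) = 0 := by
    rw [two_smul]
    nth_rewrite 2 [h]
    exact add_neg_cancel _
  exact (smul_eq_zero.1 h1).resolve_left two_ne_zero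

theorem d_e (N : LM n) (i : Fin n) (x : N.V) : N.d (N.e i x) = - N.e i (N.d x) := by
  rw [N.e_d, neg_neg]

theorem e_gr' (N : LM n) (i : Fin n) {m k : ℤ} (h : k = m - (4 * (i : ℤ) + 3)) {x : N.V}
    (hx : x ∈ N.gr m) : N.e i x ∈ N.gr k := h ▸ N.e_gr i m x hx

/-- A linear map of degree `p` which commutes with the operators `e i` up to the sign `(-1)^p`. -/
@[ext]
structure Coch (M N : LM n) (p : ℤ) where
  f : M.V →ₗ[ℂ] N.V
  deg : ∀ (m : ℤ) (x : M.V), x ∈ M.gr m → f x ∈ N.gr (m + p)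
  e : ∀ (i : Fin n) (x : M.V), f (M.e i x) = (p.negOnePow : ℤ) • N.e i (f x)

/-- Closed linear maps of degree zero. -/
@[ext]
structure Hom (M N : LM n) extends GD.Hom M.toGD N.toGD where
  e : ∀ (i : Fin n) (x : M.V), f (M.e i x) = N.e i (f x)

/-- The identity. -/
def Hom.id (M : LM n) : Hom M M := ⟨GD.Hom.id M.toGD, fun _ _ => rfl⟩

/-- The composition. -/
def Hom.comp {M N P : LM n} (v : Hom N P) (u : Hom M N) : Hom M P :=
  ⟨v.toHom.comp u.toHom, fun i x => (congrArg v.f (u.e i x)).trans (v.e i _)⟩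

/-- The tensor product with a graded differential space, on the left; `e i` acts by
`sg ⊗ e i`. -/
abbrev tensL (F : SGD) (N : LM n) : LM n where
  toGD := tens F N.toGD
  e i := TensorProduct.map F.sg (N.e i)
  e_e i j z := by
    change F.V ⊗[ℂ] N.V at z
    change TensorProduct.map F.sg (N.e i) (TensorProduct.map F.sg (N.e j) z) =
      - TensorProduct.map F.sg (N.e j) (TensorProduct.map F.sg (N.e i) z)
    induction z using TensorProduct.induction_on with
    | zero => simp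
    | tmul x y => rw [map_tmul, map_tmul, map_tmul, map_tmul, N.e_e, tmul_neg]
    | add a b ha hb => rw [map_add, map_add, ha, hb, map_add, map_add, neg_add]
  e_d i z := by
    change F.V ⊗[ℂ] N.V at z
    change TensorProduct.map F.sg (N.e i) (td F N.toGD z) =
      - td F N.toGD (TensorProduct.map F.sg (N.e i) z)
    induction z using TensorProduct.induction_on with
    | zero => simp
    | tmul x y =>
      rw [td_tmul, map_add, map_tmul, map_tmul, map_tmul, td_tmul, F.sg_d, N.e_d, neg_tmul,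
        tmul_neg]
      abel
    | add a b ha hb => rw [map_add, map_add, ha, hb, map_add, map_add]; abel
  e_gr i m z hz := by
    refine map_tgr (T := TensorProduct.map F.sg (N.e i)) ?_ hz
    intro k l x y hkl hx hy
    exact tmul_mem (by rw [← hkl]; ring) (F.sg_mem hx) (N.e_gr i l y hy)

theorem tensL_e_tmul (F : SGD) (N : LM n) (i : Fin n) (x : F.V) (y : N.V) :
    (tensL F N).e i (x ⊗ₜ[ℂ] y) = F.sg x ⊗ₜ[ℂ] N.e i y := rfl

/-- Operators `y i` on `W` with the properties of the multiplication by closed central elements of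
degree `4 i + 4`. -/
structure Yop (n : ℕ) (W : SGD) where
  y : Fin n → W.V →ₗ[ℂ] W.V
  y_y : ∀ i j x, y i (y j x) = y j (y i x)
  y_d : ∀ i x, y i (W.d x) = W.d (y i x)
  y_sg : ∀ i x, y i (W.sg x) = W.sg (y i x)
  y_gr : ∀ (i : Fin n) (m : ℤ) (x : W.V), x ∈ W.gr m → y i x ∈ W.gr (m + (4 * (i : ℤ) + 4))

/-- The operator `a ⊗ x ↦ s(a) y_i ⊗ e_i x`. -/
def yE {W : SGD} (Y : Yop n W) (N : LM n) (i : Fin n) : W.V ⊗[ℂ] N.V →ₗ[ℂ] W.V ⊗[ℂ] N.V :=
  TensorProduct.map (Y.y i ∘ₗ W.sg) (N.e i)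

theorem yE_tmul {W : SGD} (Y : Yop n W) (N : LM n) (i : Fin n) (a : W.V) (x : N.V) :
    yE Y N i (a ⊗ₜ[ℂ] x) = Y.y i (W.sg a) ⊗ₜ[ℂ] N.e i x := rfl

/-- The twisted differential. -/
def twd {W : SGD} (Y : Yop n W) (N : LM n) : W.V ⊗[ℂ] N.V →ₗ[ℂ] W.V ⊗[ℂ] N.V :=
  td W N.toGD - ∑ i, yE Y N i

theorem twd_apply {W : SGD} (Y : Yop n W) (N : LM n) (z : W.V ⊗[ℂ] N.V) :
    twd Y N z = td W N.toGD z - ∑ i, yE Y N i z := by
  rw [twd, LinearMap.sub_apply, LinearMap.sum_apply]

theorem twd_tmul {W : SGD} (Y : Yop n W) (N : LM n) (a : W.V) (x : N.V) :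
    twd Y N (a ⊗ₜ[ℂ] x) = W.d a ⊗ₜ[ℂ] x + W.sg a ⊗ₜ[ℂ] N.d x -
      ∑ i, Y.y i (W.sg a) ⊗ₜ[ℂ] N.e i x := by
  rw [twd_apply, td_tmul]
  rfl

theorem yE_td {W : SGD} (Y : Yop n W) (N : LM n) (i : Fin n) (z : W.V ⊗[ℂ] N.V) :
    yE Y N i (td W N.toGD z) = - td W N.toGD (yE Y N i z) := by
  induction z using TensorProduct.induction_on with
  | zero => simp
  | tmul a x =>
    rw [td_tmul, map_add, yE_tmul, yE_tmul, yE_tmul, td_tmul, W.sg_d, map_neg, Y.y_d, N.e_d,
      neg_tmul, tmul_neg, Y.y_sg i (W.sg a)]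
    abel
  | add a b ha hb => rw [map_add, map_add, ha, hb, map_add, map_add]; abel

theorem yE_yE {W : SGD} (Y : Yop n W) (N : LM n) (i j : Fin n) (z : W.V ⊗[ℂ] N.V) :
    yE Y N i (yE Y N j z) = - yE Y N j (yE Y N i z) := by
  induction z using TensorProduct.induction_on with
  | zero => simp
  | tmul a x =>
    rw [yE_tmul, yE_tmul, yE_tmul, yE_tmul, N.e_e i j, tmul_neg, ← Y.y_sg j (W.sg a), W.sg_sg,
      ← Y.y_sg i (W.sg a), W.sg_sg, Y.y_y i j]
  | add a b ha hb => rw [map_add, map_add, ha, hb, map_add, map_add]; abel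

theorem sum_yE_yE {W : SGD} (Y : Yop n W) (N : LM n) (z : W.V ⊗[ℂ] N.V) :
    ∑ i, yE Y N i (∑ j, yE Y N j z) = 0 := by
  have h : ∑ i, yE Y N i (∑ j, yE Y N j z) = - ∑ i, yE Y N i (∑ j, yE Y N j z) := by
    simp only [map_sum]
    rw [Finset.sum_comm]
    conv_lhs =>
      enter [2, j, 2, i]
      rw [yE_yE]
    simp only [Finset.sum_neg_distrib]
    rw [Finset.sum_comm]
  have h1 : (2 : ℂ) • ∑ i, yE Y N i (∑ j, yE Y N j z) = 0 := by
    rw [two_smul]
    nth_rewrite 2 [h]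
    exact add_neg_cancel _
  exact (smul_eq_zero.1 h1).resolve_left two_ne_zero

/-- The twisted tensor product `W ⊗ N`. -/
abbrev tw {W : SGD} (Y : Yop n W) (N : LM n) : GD where
  V := W.V ⊗[ℂ] N.V
  d := twd Y N
  dd z := by
    rw [twd_apply, twd_apply, map_sub, (tens W N.toGD).dd z, map_sum]
    simp only [map_sub, Finset.sum_sub_distrib]
    rw [sum_yE_yE, sub_zero, zero_sub]
    simp only [yE_td, Finset.sum_neg_distrib, sub_neg_eq_add]
    exact neg_add_cancel _
  gr := tgr W.toGD N.toGD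
  dgr m z hz := by
    rw [twd_apply]
    refine Submodule.sub_mem _ ((tens W N.toGD).dgr m z hz) (Submodule.sum_mem _ fun i _ => ?_)
    refine map_tgr (T := yE Y N i) ?_ hz
    intro k l a x hkl ha hx
    exact tmul_mem (by rw [← hkl]; ring) (Y.y_gr i _ _ (W.sg_mem ha)) (N.e_gr i l x hx)

theorem tw_d {W : SGD} (Y : Yop n W) (N : LM n) (z : W.V ⊗[ℂ] N.V) :
    (tw Y N).d z = td W N.toGD z - ∑ i, yE Y N i z := twd_apply Y N z

end LM

end

end Vale.Agent.P286.H64
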