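import Vale.Agent.P286.H64.LM
import Vale.Agent.P286.H549.Expo

/-!
# The twisted tensor product with a contractible algebra

For a contractible differential graded algebra `W` with closed central elements `y i`, and a module
`N` over the exterior algebra, the augmentation `W ⊗ N → N` of the twisted tensor product is a
quasi-isomorphism, with the section `x ↦ E (1 ⊗ x)`, where `E` is the product of the
`1 + c i ⊗ e i`, `d (c i) = y i`.
-/

namespace Vale.Agent.P286.H64

open TensorProduct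
open Vale.Agent.P286.H847 (GD SGD)
open Vale.Agent.P286.H847.SGD
open Vale.Agent.P286.H549 (ex ex_cons ex_conj ex_mul_ex ex_mul_ex')

noncomputable section

theorem hom_ext {M N : GD} {u v : GD.Hom M N} (h : ∀ x, u.f x = v.f x) : u = v := by
  obtain ⟨f, _, _⟩ := u
  obtain ⟨g, _, _⟩ := v
  have e : f = g := LinearMap.ext h
  subst e
  rfl

/-! ### Powers of the sign operator -/

/-- The power of the sign operator. -/
def sgp (E : SGD) (p : ℤ) : E.V →ₗ[ℂ] E.V := if Even p then LinearMap.id else E.sg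

theorem sgp_even (E : SGD) {p : ℤ} (h : Even p) (x : E.V) : sgp E p x = x := by
  rw [sgp, if_pos h]
  rfl

theorem sgp_odd (E : SGD) {p : ℤ} (h : ¬ Even p) (x : E.V) : sgp E p x = E.sg x := by
  rw [sgp, if_neg h]

theorem sgp_zero (E : SGD) (x : E.V) : sgp E 0 x = x := sgp_even E Even.zero x

theorem sgp_one (E : SGD) (x : E.V) : sgp E 1 x = E.sg x := sgp_odd E (by decide) x

theorem sgp_succ (E : SGD) (p : ℤ) (x : E.V) : sgp E (p + 1) x = E.sg (sgp E p x) := by
  by_cases h : Even p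
  · rw [sgp_odd E (by simpa [Int.even_add_one] using h), sgp_even E h]
  · rw [sgp_even E (by simpa [Int.even_add_one] using h), sgp_odd E h, E.sg_sg]

theorem sgp_add (E : SGD) (p q : ℤ) (x : E.V) : sgp E (p + q) x = sgp E p (sgp E q x) := by
  by_cases hp : Even p
  · by_cases hq : Even q
    · rw [sgp_even E (hp.add hq), sgp_even E hq, sgp_even E hp]
    · rw [sgp_odd E (by simp [Int.even_add, hp, hq]), sgp_odd E hq, sgp_even E hp]
  · by_cases hq : Even q
    · rw [sgp_odd E (by simp [Int.even_add, hp, hq]), sgp_even E hq, sgp_odd E hp]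
    · rw [sgp_even E (by simp [Int.even_add, hp, hq]), sgp_odd E hq, sgp_odd E hp, E.sg_sg]

theorem sgp_sg (E : SGD) (p : ℤ) (x : E.V) : sgp E p (E.sg x) = E.sg (sgp E p x) := by
  by_cases h : Even p
  · rw [sgp_even E h, sgp_even E h]
  · rw [sgp_odd E h, sgp_odd E h]

theorem sgp_mem (E : SGD) (p : ℤ) {m : ℤ} {x : E.V} (hx : x ∈ E.gr m) : sgp E p x ∈ E.gr m := by
  by_cases h : Even p
  · rwa [sgp_even E h]
  · rw [sgp_odd E h]
    exact E.sg_mem hx

theorem npow_even {V : Type} [AddCommGroup V] {p : ℤ} (h : Even p) (x : V) :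
    (p.negOnePow : ℤ) • x = x := by
  rw [Int.negOnePow_even p h]
  simp

theorem npow_odd {V : Type} [AddCommGroup V] {p : ℤ} (h : ¬ Even p) (x : V) :
    (p.negOnePow : ℤ) • x = - x := by
  rw [Int.negOnePow_odd p (Int.not_even_iff_odd.1 h)]
  simp

theorem npow_npow {V : Type} [AddCommGroup V] (p : ℤ) (x : V) :
    (p.negOnePow : ℤ) • (p.negOnePow : ℤ) • x = x := by
  by_cases h : Even p
  · rw [npow_even h, npow_even h]
  · rw [npow_odd h, npow_odd h, neg_neg]

/-- An operator which anticommutes with the sign operator. -/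
theorem sgp_anti (E E' : SGD) (p : ℤ) (u : E.V →ₗ[ℂ] E'.V) (hu : ∀ x, u (E.sg x) = - E'.sg (u x))
    (x : E.V) : sgp E' p (u x) = (p.negOnePow : ℤ) • u (sgp E p x) := by
  by_cases h : Even p
  · rw [sgp_even E' h, sgp_even E h, npow_even h]
  · rw [sgp_odd E' h, sgp_odd E h, npow_odd h, hu, neg_neg]

/-- An operator which commutes with the sign operator. -/
theorem sgp_comm (E E' : SGD) (p : ℤ) (u : E.V →ₗ[ℂ] E'.V) (hu : SgC (E := E) (E' := E') u)
    (x : E.V) : sgp E' p (u x) = u (sgp E p x) := by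
  by_cases h : Even p
  · rw [sgp_even E' h, sgp_even E h]
  · rw [sgp_odd E' h, sgp_odd E h, hu]

theorem sgp_d (E : SGD) (p : ℤ) (x : E.V) :
    sgp E p (E.d x) = (p.negOnePow : ℤ) • E.d (sgp E p x) := by
  by_cases h : Even p
  · rw [sgp_even E h, sgp_even E h, npow_even h]
  · rw [sgp_odd E h, sgp_odd E h, npow_odd h, E.sg_d]

namespace LM

variable {n : ℕ}

/-! ### Functoriality -/

/-- The operator `a ⊗ x ↦ s^p(a) ⊗ φ(x)`. -/
def smap (W : SGD) {M N : GD} (p : ℤ) (φ : M.V →ₗ[ℂ] N.V) : W.V ⊗[ℂ] M.V →ₗ[ℂ] W.V ⊗[ℂ] N.V :=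
  TensorProduct.map (sgp W p) φ

theorem smap_tmul (W : SGD) {M N : GD} (p : ℤ) (φ : M.V →ₗ[ℂ] N.V) (a : W.V) (x : M.V) :
    smap W p φ (a ⊗ₜ[ℂ] x) = sgp W p a ⊗ₜ[ℂ] φ x := rfl

theorem smap_mem (W : SGD) {M N : GD} {p : ℤ} {φ : M.V →ₗ[ℂ] N.V}
    (h : ∀ (m : ℤ) (x : M.V), x ∈ M.gr m → φ x ∈ N.gr (m + p)) {m : ℤ} {z : W.V ⊗[ℂ] M.V}
    (hz : z ∈ tgr W.toGD M m) : smap W p φ z ∈ tgr W.toGD N (m + p) := by
  refine map_tgr (T := smap W p φ) ?_ hz
  intro i j a x hij ha hx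
  exact tmul_mem (by rw [← hij]; ring) (sgp_mem W p ha) (h j x hx)

theorem smap_comp (W : SGD) {M N P : GD} (p q : ℤ) (φ : M.V →ₗ[ℂ] N.V) (ψ : N.V →ₗ[ℂ] P.V)
    (z : W.V ⊗[ℂ] M.V) : smap W q ψ (smap W p φ z) = smap W (q + p) (ψ ∘ₗ φ) z := by
  induction z using TensorProduct.induction_on with
  | zero => simp
  | tmul a x => rw [smap_tmul, smap_tmul, smap_tmul, sgp_add]; rfl
  | add a b ha hb => rw [map_add, map_add, map_add, ha, hb]

theorem smap_id (W : SGD) {M : GD} (z : W.V ⊗[ℂ] M.V) :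
    smap W 0 (LinearMap.id : M.V →ₗ[ℂ] M.V) z = z := by
  induction z using TensorProduct.induction_on with
  | zero => simp
  | tmul a x => rw [smap_tmul, sgp_zero]; rfl
  | add a b ha hb => rw [map_add, ha, hb]

/-- The untwisted differential. -/
theorem td_smap (W : SGD) {M N : GD} (p : ℤ) (φ : M.V →ₗ[ℂ] N.V) (z : W.V ⊗[ℂ] M.V) :
    td W N (smap W p φ z) - (p.negOnePow : ℤ) • smap W p φ (td W M z) =
      smap W (p + 1) (N.d ∘ₗ φ - (p.negOnePow : ℤ) • (φ ∘ₗ M.d)) z := by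
  induction z using TensorProduct.induction_on with
  | zero => simp
  | tmul a x =>
    rw [td_tmul, smap_tmul, td_tmul, map_add, smap_tmul, smap_tmul, smap_tmul, sgp_d, sgp_sg,
      sgp_succ, smul_add, LinearMap.sub_apply, LinearMap.smul_apply, tmul_sub]
    by_cases h : Even p
    · simp only [npow_even h, LinearMap.comp_apply]
      abel
    · simp only [npow_odd h, LinearMap.comp_apply, neg_tmul, tmul_neg]
      abel
  | add a b ha hb =>
    rw [map_add, map_add, map_add, map_add, map_add, smul_add, ← ha, ← hb]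
    abel

variable {W : SGD}

theorem smap_yE (Y : Yop n W) {M N : LM n} (p : ℤ) (φ : M.V →ₗ[ℂ] N.V)
    (h : ∀ (i : Fin n) (x : M.V), φ (M.e i x) = (p.negOnePow : ℤ) • N.e i (φ x)) (i : Fin n)
    (z : W.V ⊗[ℂ] M.V) :
    smap W p φ (yE Y M i z) = (p.negOnePow : ℤ) • yE Y N i (smap W p φ z) := by
  induction z using TensorProduct.induction_on with
  | zero => simp
  | tmul a x =>
    rw [yE_tmul, smap_tmul, smap_tmul, yE_tmul, h, sgp_comm W W p (Y.y i) (Y.y_sg i), sgp_sg]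
    by_cases h : Even p
    · rw [npow_even h, npow_even h]
    · rw [npow_odd h, npow_odd h, tmul_neg]
  | add a b ha hb => rw [map_add, map_add, map_add, map_add, ha, hb, smul_add]

/-- **The differential of a cochain** of the twisted tensor products. -/
theorem twd_smap (Y : Yop n W) {M N : LM n} (p : ℤ) (φ : M.V →ₗ[ℂ] N.V)
    (h : ∀ (i : Fin n) (x : M.V), φ (M.e i x) = (p.negOnePow : ℤ) • N.e i (φ x))
    (z : W.V ⊗[ℂ] M.V) :
    twd Y N (smap W p φ z) - (p.negOnePow : ℤ) • smap W p φ (twd Y M z) =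
      smap W (p + 1) (N.d ∘ₗ φ - (p.negOnePow : ℤ) • (φ ∘ₗ M.d)) z := by
  rw [← td_smap, twd_apply, twd_apply, map_sub, map_sum, smul_sub, Finset.smul_sum]
  simp only [smap_yE Y p φ h, npow_npow]
  abel

/-- The twisted tensor product of a homomorphism. -/
abbrev twMap (Y : Yop n W) {M N : LM n} (φ : Hom M N) : GD.Hom (tw Y M) (tw Y N) where
  f := smap W 0 φ.f
  comm z := by
    change W.V ⊗[ℂ] M.V at z
    change smap W 0 φ.f (twd Y M z) = twd Y N (smap W 0 φ.f z)
    have h := twd_smap Y 0 φ.f (fun i x => by rw [npow_even Even.zero]; exact φ.e i x) z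
    rw [npow_even Even.zero, npow_even Even.zero] at h
    have h2 : N.d ∘ₗ φ.f - φ.f ∘ₗ M.d = 0 :=
      LinearMap.ext fun x => by
        rw [LinearMap.sub_apply, LinearMap.comp_apply, LinearMap.comp_apply, φ.comm, sub_self]
        rfl
    rw [h2] at h
    rw [eq_comm, ← sub_eq_zero, h, smap, TensorProduct.map_zero_right, LinearMap.zero_apply]
  deg m z hz := by
    have := smap_mem W (p := 0) (φ := φ.f) (fun m x hx => by rw [add_zero]; exact φ.deg m x hx) hz
    rwa [add_zero] at this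

theorem twMap_tmul (Y : Yop n W) {M N : LM n} (φ : Hom M N) (a : W.V) (x : M.V) :
    (twMap Y φ).f (a ⊗ₜ[ℂ] x) = a ⊗ₜ[ℂ] φ.f x := by
  change sgp W 0 a ⊗ₜ[ℂ] φ.f x = _
  rw [sgp_zero]

/-- The tensor product of homomorphisms. -/
abbrev Hom.tensL {F F' : SGD} {M N : LM n} (u : GD.Hom F.toGD F'.toGD)
    (hu : SgC (E := F) (E' := F') u.f) (φ : Hom M N) : Hom (LM.tensL F M) (LM.tensL F' N) where
  toHom := tmap u hu φ.toHom
  e i z := by
    change F.V ⊗[ℂ] M.V at z
    change TensorProduct.map u.f φ.f (TensorProduct.map F.sg (M.e i) z) =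
      TensorProduct.map F'.sg (N.e i) (TensorProduct.map u.f φ.f z)
    induction z using TensorProduct.induction_on with
    | zero => simp
    | tmul a x => rw [map_tmul, map_tmul, map_tmul, map_tmul, hu, φ.e]
    | add a b ha hb => rw [map_add, map_add, ha, hb, map_add, map_add]

/-- The operator `a ⊗ x ↦ s^p(a) ⊗ φ(x)` commutes with the operators `e i` up to `(-1)^p`. -/
theorem smap_e (F : SGD) {M N : LM n} (p : ℤ) (φ : M.V →ₗ[ℂ] N.V)
    (h : ∀ (i : Fin n) (x : M.V), φ (M.e i x) = (p.negOnePow : ℤ) • N.e i (φ x)) (i : Fin n)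
    (z : F.V ⊗[ℂ] M.V) :
    smap F p φ ((LM.tensL F M).e i z) = (p.negOnePow : ℤ) • (LM.tensL F N).e i (smap F p φ z) := by
  change smap F p φ (TensorProduct.map F.sg (M.e i) z) =
    (p.negOnePow : ℤ) • TensorProduct.map F.sg (N.e i) (smap F p φ z)
  induction z using TensorProduct.induction_on with
  | zero => simp
  | tmul a x =>
    rw [map_tmul, smap_tmul, smap_tmul, map_tmul, h, sgp_sg]
    by_cases h : Even p
    · rw [npow_even h, npow_even h]
    · rw [npow_odd h, npow_odd h, tmul_neg]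
  | add a b ha hb => rw [map_add, map_add, map_add, map_add, ha, hb, smul_add]

/-! ### The exponential -/

/-- Operators `c i` on `W` with the properties of the multiplication by elements `c i` of degree
`4 i + 3` with `d (c i) = y i`. -/
structure Cop (Y : Yop n W) where
  c : Fin n → W.V →ₗ[ℂ] W.V
  c_c : ∀ i j x, c i (c j x) = - c j (c i x)
  c_d : ∀ i x, W.d (c i x) + c i (W.d x) = Y.y i x
  c_sg : ∀ i x, c i (W.sg x) = - W.sg (c i x)
  c_y : ∀ i j x, Y.y i (c j x) = c j (Y.y i x)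
  c_gr : ∀ (i : Fin n) (m : ℤ) (x : W.V), x ∈ W.gr m → c i x ∈ W.gr (m + (4 * (i : ℤ) + 3))

variable {Y : Yop n W}

theorem Cop.sg_c (C : Cop Y) (i : Fin n) (x : W.V) : W.sg (C.c i x) = - C.c i (W.sg x) := by
  rw [C.c_sg, neg_neg]

/-- The operator `a ⊗ x ↦ c_i s(a) ⊗ e_i x`. -/
def cE (C : Cop Y) (N : LM n) (i : Fin n) : Module.End ℂ (W.V ⊗[ℂ] N.V) :=
  TensorProduct.map (C.c i ∘ₗ W.sg) (N.e i)

theorem cE_tmul (C : Cop Y) (N : LM n) (i : Fin n) (a : W.V) (x : N.V) :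
    cE C N i (a ⊗ₜ[ℂ] x) = C.c i (W.sg a) ⊗ₜ[ℂ] N.e i x := rfl

theorem cE_cE (C : Cop Y) (N : LM n) (i j : Fin n) :
    cE C N i * cE C N j = cE C N j * cE C N i := by
  refine TensorProduct.ext' fun a x => ?_
  rw [Module.End.mul_apply, Module.End.mul_apply, cE_tmul, cE_tmul, cE_tmul, cE_tmul, N.e_e i j,
    C.sg_c, C.sg_c, W.sg_sg, map_neg, map_neg, C.c_c i j, neg_neg, tmul_neg, neg_tmul]

theorem cE_sq (C : Cop Y) (N : LM n) (i : Fin n) : cE C N i * cE C N i = 0 := by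
  refine TensorProduct.ext' fun a x => ?_
  rw [Module.End.mul_apply, cE_tmul, cE_tmul, N.e_sq, tmul_zero]
  rfl

theorem td_cE (C : Cop Y) (N : LM n) (i : Fin n) :
    (td W N.toGD : Module.End ℂ (W.V ⊗[ℂ] N.V)) * cE C N i - cE C N i * td W N.toGD =
      yE Y N i := by
  refine TensorProduct.ext' fun a x => ?_
  have h1 := C.c_d i (W.sg a)
  rw [LinearMap.sub_apply, Module.End.mul_apply, Module.End.mul_apply, cE_tmul, td_tmul, td_tmul,
    map_add, cE_tmul, cE_tmul, yE_tmul, ← h1, N.d_e, W.sg_d, C.sg_c, W.sg_sg, map_neg, neg_tmul,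
    tmul_neg, neg_neg, neg_tmul, add_tmul]
  abel

theorem yE_cE (C : Cop Y) (N : LM n) (i j : Fin n) :
    (yE Y N i : Module.End ℂ (W.V ⊗[ℂ] N.V)) * cE C N j = cE C N j * yE Y N i := by
  refine TensorProduct.ext' fun a x => ?_
  rw [Module.End.mul_apply, Module.End.mul_apply, cE_tmul, yE_tmul, yE_tmul, cE_tmul, N.e_e i j,
    C.sg_c, W.sg_sg, ← Y.y_sg, W.sg_sg, map_neg, neg_tmul, tmul_neg, neg_neg, C.c_y]

theorem yE_cE_self (C : Cop Y) (N : LM n) (i : Fin n) :
    (yE Y N i : Module.End ℂ (W.V ⊗[ℂ] N.V)) * cE C N i = 0 := by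
  refine TensorProduct.ext' fun a x => ?_
  rw [Module.End.mul_apply, cE_tmul, yE_tmul, N.e_sq, tmul_zero]
  rfl

/-- The product of the `1 + c_i ⊗ e_i`. -/
def cX (C : Cop Y) (N : LM n) : W.V ⊗[ℂ] N.V →ₗ[ℂ] W.V ⊗[ℂ] N.V := ex (cE C N) (List.finRange n)

/-- The product of the `1 - c_i ⊗ e_i`. -/
def cN (C : Cop Y) (N : LM n) : W.V ⊗[ℂ] N.V →ₗ[ℂ] W.V ⊗[ℂ] N.V :=
  ex (fun i => - cE C N i) (List.finRange n)

theorem cX_cN (C : Cop Y) (N : LM n) (z : W.V ⊗[ℂ] N.V) : cX C N (cN C N z) = z :=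
  LinearMap.congr_fun (ex_mul_ex (T := cE C N) (cE_cE C N) (cE_sq C N) (List.finRange n)) z

theorem cN_cX (C : Cop Y) (N : LM n) (z : W.V ⊗[ℂ] N.V) : cN C N (cX C N z) = z :=
  LinearMap.congr_fun (ex_mul_ex' (T := cE C N) (cE_cE C N) (cE_sq C N) (List.finRange n)) z

theorem sum_finRange {V : Type} [AddCommGroup V] (f : Fin n → V) :
    ((List.finRange n).map f).sum = ∑ i, f i := by
  rw [← List.sum_ofFn, List.ofFn_eq_map]

/-- **The exponential conjugates the untwisted differential into the twisted one.** -/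
theorem twd_cX (C : Cop Y) (N : LM n) (z : W.V ⊗[ℂ] N.V) :
    twd Y N (cX C N z) = cX C N (td W N.toGD z) := by
  have h1 := LinearMap.congr_fun (ex_conj (T := cE C N)
    (Y := fun i => (yE Y N i : Module.End ℂ (W.V ⊗[ℂ] N.V))) (D := td W N.toGD)
    (td_cE C N) (yE_cE C N) (yE_cE_self C N) (List.finRange n)) z
  rw [Module.End.mul_apply, Module.End.mul_apply, sum_finRange] at h1
  exact h1

theorem cN_twd (C : Cop Y) (N : LM n) (z : W.V ⊗[ℂ] N.V) :
    cN C N (twd Y N z) = td W N.toGD (cN C N z) := by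
  have h := twd_cX C N (cN C N z)
  rw [cX_cN] at h
  rw [h, cN_cX]

/-- A submodule stable under the `T i` is stable under the exponential. -/
theorem ex_mem {V : Type} [AddCommGroup V] [Module ℂ V] {T : Fin n → Module.End ℂ V}
    {P : Submodule ℂ V} (h : ∀ i, ∀ v ∈ P, T i v ∈ P) (l : List (Fin n)) {v : V} (hv : v ∈ P) :
    ex T l v ∈ P := by
  induction l with
  | nil => exact hv
  | cons i l ih =>
    rw [ex_cons, add_mul, one_mul]
    exact add_mem ih (h i _ ih)

/-- Intertwining maps. -/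
theorem ex_map {V V' : Type} [AddCommGroup V] [Module ℂ V] [AddCommGroup V'] [Module ℂ V']
    {T : Fin n → Module.End ℂ V} {T' : Fin n → Module.End ℂ V'} {u : V →ₗ[ℂ] V'}
    (h : ∀ i v, u (T i v) = T' i (u v)) (l : List (Fin n)) (v : V) :
    u (ex T l v) = ex T' l (u v) := by
  induction l with
  | nil => rfl
  | cons i l ih =>
    rw [ex_cons, ex_cons, add_mul, add_mul, one_mul, one_mul, LinearMap.add_apply,
      LinearMap.add_apply, map_add, Module.End.mul_apply, Module.End.mul_apply, h, ih]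

theorem cE_mem (C : Cop Y) (N : LM n) (i : Fin n) {m : ℤ} {z : W.V ⊗[ℂ] N.V}
    (hz : z ∈ tgr W.toGD N.toGD m) : cE C N i z ∈ tgr W.toGD N.toGD m := by
  refine map_tgr (T := cE C N i) ?_ hz
  intro k l a x hkl ha hx
  exact tmul_mem (by rw [← hkl]; ring) (C.c_gr i _ _ (W.sg_mem ha)) (N.e_gr i l x hx)

theorem cX_mem (C : Cop Y) (N : LM n) {m : ℤ} {z : W.V ⊗[ℂ] N.V}
    (hz : z ∈ tgr W.toGD N.toGD m) : cX C N z ∈ tgr W.toGD N.toGD m :=
  ex_mem (fun i _ hv => cE_mem C N i hv) _ hz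

theorem cN_mem (C : Cop Y) (N : LM n) {m : ℤ} {z : W.V ⊗[ℂ] N.V}
    (hz : z ∈ tgr W.toGD N.toGD m) : cN C N z ∈ tgr W.toGD N.toGD m :=
  ex_mem (T := fun i => - cE C N i) (fun i _ hv => neg_mem (cE_mem C N i hv)) _ hz

theorem smap_cE (C : Cop Y) {M N : LM n} (p : ℤ) (φ : M.V →ₗ[ℂ] N.V)
    (h : ∀ (i : Fin n) (x : M.V), φ (M.e i x) = (p.negOnePow : ℤ) • N.e i (φ x)) (i : Fin n)
    (z : W.V ⊗[ℂ] M.V) : smap W p φ (cE C M i z) = cE C N i (smap W p φ z) := by
  induction z using TensorProduct.induction_on with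
  | zero => simp
  | tmul a x =>
    rw [cE_tmul, smap_tmul, smap_tmul, cE_tmul, h, sgp_anti W W p (C.c i) (C.c_sg i), sgp_sg]
    by_cases h : Even p
    · rw [npow_even h, npow_even h]
    · rw [npow_odd h, npow_odd h, tmul_neg, neg_tmul, neg_neg]
  | add a b ha hb => rw [map_add, map_add, map_add, map_add, ha, hb]

/-- The exponential is natural. -/
theorem smap_cX (C : Cop Y) {M N : LM n} (p : ℤ) (φ : M.V →ₗ[ℂ] N.V)
    (h : ∀ (i : Fin n) (x : M.V), φ (M.e i x) = (p.negOnePow : ℤ) • N.e i (φ x))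
    (z : W.V ⊗[ℂ] M.V) : smap W p φ (cX C M z) = cX C N (smap W p φ z) :=
  ex_map (fun i v => smap_cE C p φ h i v) _ z

theorem smap_cN (C : Cop Y) {M N : LM n} (p : ℤ) (φ : M.V →ₗ[ℂ] N.V)
    (h : ∀ (i : Fin n) (x : M.V), φ (M.e i x) = (p.negOnePow : ℤ) • N.e i (φ x))
    (z : W.V ⊗[ℂ] M.V) : smap W p φ (cN C M z) = cN C N (smap W p φ z) :=
  ex_map (T := fun i => - cE C M i) (T' := fun i => - cE C N i)
    (fun i v => by
      rw [LinearMap.neg_apply, LinearMap.neg_apply, map_neg, smap_cE C p φ h i v]) _ z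

/-- The isomorphism from the untwisted to the twisted tensor product. -/
abbrev cXHom (C : Cop Y) (N : LM n) : GD.Hom (tens W N.toGD) (tw Y N) :=
  ⟨cX C N, fun z => (twd_cX C N z).symm, fun _ _ hz => cX_mem C N hz⟩

/-- The inverse isomorphism. -/
abbrev cNHom (C : Cop Y) (N : LM n) : GD.Hom (tw Y N) (tens W N.toGD) :=
  ⟨cN C N, fun z => cN_twd C N z, fun _ _ hz => cN_mem C N hz⟩

/-! ### The augmentation -/

/-- A contraction of `W`. -/
structure Ctr (Y : Yop n W) extends Cop Y where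
  one : W.V
  one_gr : one ∈ W.gr 0
  d_one : W.d one = 0
  eps : W.V →ₗ[ℂ] ℂ
  eps_one : eps one = 1
  eps_d : ∀ a, eps (W.d a) = 0
  eps_y : ∀ i a, eps (Y.y i a) = 0
  eps_c : ∀ i a, eps (c i a) = 0
  eps_sg : ∀ a, eps (W.sg a) = eps a
  eps_gr : ∀ m : ℤ, m ≠ 0 → ∀ a ∈ W.gr m, eps a = 0
  h : W.V →ₗ[ℂ] W.V
  h_gr : ∀ (m : ℤ) (a : W.V), a ∈ W.gr m → h a ∈ W.gr (m - 1)
  h_sg : ∀ a, h (W.sg a) = - W.sg (h a)
  h_d : ∀ a, W.d (h a) + h (W.d a) = a - eps a • one

theorem Ctr.sg_one (K : Ctr Y) : W.sg K.one = K.one := W.sg_even K.one_gr Even.zero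

/-- The map `a ⊗ x ↦ eps(a) x`. -/
def epsT (K : Ctr Y) (N : GD) : W.V ⊗[ℂ] N.V →ₗ[ℂ] N.V :=
  (TensorProduct.lid ℂ N.V).toLinearMap ∘ₗ TensorProduct.map K.eps LinearMap.id

theorem epsT_tmul (K : Ctr Y) (N : GD) (a : W.V) (x : N.V) :
    epsT K N (a ⊗ₜ[ℂ] x) = K.eps a • x := by
  rw [epsT, LinearMap.comp_apply, TensorProduct.map_tmul]
  exact TensorProduct.lid_tmul _ _

/-- The map `x ↦ 1 ⊗ x`. -/
def oneT (K : Ctr Y) (N : GD) : N.V →ₗ[ℂ] W.V ⊗[ℂ] N.V := TensorProduct.mk ℂ W.V N.V K.one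

theorem oneT_apply (K : Ctr Y) (N : GD) (x : N.V) : oneT K N x = K.one ⊗ₜ[ℂ] x := rfl

theorem epsT_oneT (K : Ctr Y) (N : GD) (x : N.V) : epsT K N (oneT K N x) = x := by
  rw [oneT_apply, epsT_tmul, K.eps_one, one_smul]

theorem epsT_td (K : Ctr Y) (N : GD) (z : W.V ⊗[ℂ] N.V) :
    epsT K N (td W N z) = N.d (epsT K N z) := by
  induction z using TensorProduct.induction_on with
  | zero => simp
  | tmul a x =>
    rw [td_tmul, map_add, epsT_tmul, epsT_tmul, epsT_tmul, K.eps_d, K.eps_sg, zero_smul, zero_add,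
      map_smul]
  | add a b ha hb => rw [map_add, map_add, map_add, map_add, ha, hb]

theorem epsT_yE (K : Ctr Y) (N : LM n) (i : Fin n) (z : W.V ⊗[ℂ] N.V) :
    epsT K N.toGD (yE Y N i z) = 0 := by
  induction z using TensorProduct.induction_on with
  | zero => simp
  | tmul a x => rw [yE_tmul, epsT_tmul, K.eps_y, zero_smul]
  | add a b ha hb => rw [map_add, map_add, ha, hb, add_zero]

theorem epsT_cE (K : Ctr Y) (N : LM n) (i : Fin n) (z : W.V ⊗[ℂ] N.V) :
    epsT K N.toGD (cE K.toCop N i z) = 0 := by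
  induction z using TensorProduct.induction_on with
  | zero => simp
  | tmul a x => rw [cE_tmul, epsT_tmul, K.eps_c, zero_smul]
  | add a b ha hb => rw [map_add, map_add, ha, hb, add_zero]

theorem ex_ret {V V' : Type} [AddCommGroup V] [Module ℂ V] [AddCommGroup V'] [Module ℂ V']
    {T : Fin n → Module.End ℂ V} {q : V →ₗ[ℂ] V'} (h : ∀ i v, q (T i v) = 0)
    (l : List (Fin n)) (v : V) : q (ex T l v) = q v := by
  induction l with
  | nil => rfl
  | cons i l ih =>
    rw [ex_cons, add_mul, one_mul, LinearMap.add_apply, map_add, Module.End.mul_apply, h, ih,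
      add_zero]

theorem epsT_cX (K : Ctr Y) (N : LM n) (z : W.V ⊗[ℂ] N.V) :
    epsT K N.toGD (cX K.toCop N z) = epsT K N.toGD z :=
  ex_ret (T := cE K.toCop N) (fun i v => epsT_cE K N i v) _ z

theorem epsT_mem (K : Ctr Y) (N : GD) {m : ℤ} {z : W.V ⊗[ℂ] N.V} (hz : z ∈ tgr W.toGD N m) :
    epsT K N z ∈ N.gr m := by
  have h : tgr W.toGD N m ≤ (N.gr m).comap (epsT K N) := by
    refine tgr_le fun i j a x hij ha hx => ?_
    rw [Submodule.mem_comap, epsT_tmul]
    by_cases hi : i = 0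
    · subst hi
      rw [← hij, zero_add]
      exact Submodule.smul_mem _ _ hx
    · rw [K.eps_gr i hi a ha, zero_smul]
      exact zero_mem _
  exact h hz

/-- The augmentation of the twisted tensor product. -/
abbrev twEps (K : Ctr Y) (N : LM n) : GD.Hom (tw Y N) N.toGD where
  f := epsT K N.toGD
  comm z := by
    change W.V ⊗[ℂ] N.V at z
    change epsT K N.toGD (twd Y N z) = _
    rw [twd_apply, map_sub, epsT_td, map_sum, Finset.sum_eq_zero fun i _ => epsT_yE K N i z,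
      sub_zero]
  deg _ _ hz := epsT_mem K N.toGD hz

theorem twEps_tmul (K : Ctr Y) (N : LM n) (a : W.V) (x : N.V) :
    (twEps K N).f (a ⊗ₜ[ℂ] x) = K.eps a • x := epsT_tmul K N.toGD a x

/-- The map `x ↦ E (1 ⊗ x)`. -/
abbrev twIn (K : Ctr Y) (N : LM n) : GD.Hom N.toGD (tw Y N) where
  f := cX K.toCop N ∘ₗ oneT K N.toGD
  comm x := by
    change cX K.toCop N (oneT K N.toGD (N.d x)) = twd Y N (cX K.toCop N (oneT K N.toGD x))
    rw [twd_cX, oneT_apply, oneT_apply, td_tmul, K.d_one, zero_tmul, zero_add, K.sg_one]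
  deg m x hx := cX_mem K.toCop N (tmul_mem (zero_add m) K.one_gr hx)

theorem twIn_f (K : Ctr Y) (N : LM n) (x : N.V) :
    (twIn K N).f x = cX K.toCop N (K.one ⊗ₜ[ℂ] x) := rfl

theorem twEps_twIn (K : Ctr Y) (N : LM n) (x : N.V) : (twEps K N).f ((twIn K N).f x) = x := by
  change epsT K N.toGD (cX K.toCop N (oneT K N.toGD x)) = x
  rw [epsT_cX, epsT_oneT]

/-- The contraction of the twisted tensor product. -/
def twK (K : Ctr Y) (N : LM n) : W.V ⊗[ℂ] N.V →ₗ[ℂ] W.V ⊗[ℂ] N.V :=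
  cX K.toCop N ∘ₗ TensorProduct.map K.h LinearMap.id ∘ₗ cN K.toCop N

theorem td_h (K : Ctr Y) (N : GD) (z : W.V ⊗[ℂ] N.V) :
    td W N (TensorProduct.map K.h LinearMap.id z) + TensorProduct.map K.h LinearMap.id (td W N z) =
      z - oneT K N (epsT K N z) := by
  induction z using TensorProduct.induction_on with
  | zero => simp
  | tmul a x =>
    rw [td_tmul, map_tmul, td_tmul, map_add, map_tmul, map_tmul, K.h_sg, epsT_tmul, map_smul,
      oneT_apply, smul_tmul', ← sub_tmul, ← K.h_d, add_tmul, LinearMap.id_apply,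
      LinearMap.id_apply, neg_tmul]
    abel
  | add a b ha hb =>
    rw [map_add, map_add, map_add, map_add, map_add, map_add, add_add_add_comm, ha, hb]
    abel

theorem twd_twK (K : Ctr Y) (N : LM n) (z : W.V ⊗[ℂ] N.V) :
    twd Y N (twK K N z) + twK K N (twd Y N z) = z - (twIn K N).f ((twEps K N).f z) := by
  have h := congrArg (cX K.toCop N) (td_h K N.toGD (cN K.toCop N z))
  rw [map_add, map_sub, cX_cN, ← twd_cX, ← cN_twd] at h
  refine h.trans ?_
  congr 1
  change _ = cX K.toCop N (oneT K N.toGD (epsT K N.toGD z))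
  conv_rhs => rw [← cX_cN K.toCop N z, epsT_cX]

theorem twK_mem (K : Ctr Y) (N : LM n) {m : ℤ} {z : W.V ⊗[ℂ] N.V}
    (hz : z ∈ tgr W.toGD N.toGD m) : twK K N z ∈ tgr W.toGD N.toGD (m - 1) := by
  refine cX_mem K.toCop N (map_tgr (T := TensorProduct.map K.h LinearMap.id) ?_
    (cN_mem K.toCop N hz))
  intro i j a x hij ha hx
  exact tmul_mem (by rw [← hij]; ring) (K.h_gr i a ha) hx

/-- **The augmentation of the twisted tensor product is a quasi-isomorphism.** -/
theorem twEps_qis (K : Ctr Y) (N : LM n) : GD.Qis (twEps K N) :=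
  GD.Qis.of_htpy (twEps K N) (twIn K N) (twK K N) (fun _ _ hz => twK_mem K N hz)
    (fun _ z _ => twd_twK K N z) 0 (fun _ _ _ => zero_mem _) (fun _ x _ => by
      rw [twEps_twIn, sub_self]
      simp)

/-- The section is a quasi-isomorphism. -/
theorem twIn_qis (K : Ctr Y) (N : LM n) : GD.Qis (twIn K N) :=
  GD.Qis.of_htpy (twIn K N) (twEps K N) 0 (fun _ _ _ => zero_mem _) (fun _ x _ => by
      rw [twEps_twIn, sub_self]
      simp) (twK K N) (fun _ _ hz => twK_mem K N hz) (fun _ z _ => twd_twK K N z)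

/-- Naturality of the augmentation. -/
theorem epsT_smap (K : Ctr Y) {M N : GD} (p : ℤ) (φ : M.V →ₗ[ℂ] N.V) (z : W.V ⊗[ℂ] M.V) :
    epsT K N (smap W p φ z) = φ (epsT K M z) := by
  induction z using TensorProduct.induction_on with
  | zero => simp
  | tmul a x =>
    rw [smap_tmul, epsT_tmul, epsT_tmul, map_smul]
    by_cases h : Even p
    · rw [sgp_even W h]
    · rw [sgp_odd W h, K.eps_sg]
  | add a b ha hb => rw [map_add, map_add, map_add, map_add, ha, hb]

theorem twEps_twMap (K : Ctr Y) {M N : LM n} (φ : Hom M N) (z : W.V ⊗[ℂ] M.V) :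
    (twEps K N).f ((twMap Y φ).f z) = φ.f ((twEps K M).f z) := epsT_smap K 0 φ.f z

/-- Naturality of the section. -/
theorem smap_twIn (K : Ctr Y) {M N : LM n} (p : ℤ) (φ : M.V →ₗ[ℂ] N.V)
    (h : ∀ (i : Fin n) (x : M.V), φ (M.e i x) = (p.negOnePow : ℤ) • N.e i (φ x)) (x : M.V) :
    smap W p φ ((twIn K M).f x) = (twIn K N).f (φ x) := by
  have h1 : sgp W p K.one = K.one := by
    by_cases hp : Even p
    · rw [sgp_even W hp]
    · rw [sgp_odd W hp, K.sg_one]
  rw [twIn_f, smap_cX K.toCop p φ h, smap_tmul, h1]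
  rfl

theorem twMap_twIn (K : Ctr Y) {M N : LM n} (φ : Hom M N) (x : M.V) :
    (twMap Y φ).f ((twIn K M).f x) = (twIn K N).f (φ.f x) :=
  smap_twIn K 0 φ.f (fun i x => by rw [npow_even Even.zero]; exact φ.e i x) x

/-- The twisted tensor product preserves quasi-isomorphisms. -/
theorem twMap_qis (K : Ctr Y) {M N : LM n} (φ : Hom M N) (h : GD.Qis φ.toHom) :
    GD.Qis (twMap Y φ) := by
  refine GD.Qis.of_comp_left (twEps_qis K N) ?_
  have e : (twEps K N).comp (twMap Y φ) = φ.toHom.comp (twEps K M) :=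
    hom_ext fun z => twEps_twMap K φ z
  rw [e]
  exact h.comp (twEps_qis K M)

end LM

end

end Vale.Agent.P286.H64
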