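import Vale.Agent.P286.H847.GD2

/-!
# A perturbation lemma for quasi-isomorphisms of graded differential spaces
-/

namespace Vale.Agent.P286.H64

open Vale.Agent.P286.H847 (GD)

/-- Exactness of the kernel of `u`, if `D H + H D = 1 - io u + T` with `T` nilpotent. -/
theorem exact_pert {E N : GD} (u : GD.Hom E N) (io : N.V →ₗ[ℂ] E.V)
    (H : E.V →ₗ[ℂ] E.V) (hH : ∀ m : ℤ, ∀ x ∈ E.gr m, H x ∈ E.gr (m - 1))
    (uH : ∀ m : ℤ, ∀ x ∈ E.gr m, u.f (H x) = 0)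
    (T : E.V →ₗ[ℂ] E.V)
    (hT : ∀ m : ℤ, ∀ x ∈ E.gr m, E.d (H x) + H (E.d x) = x - io (u.f x) + T x) (k : ℕ) :
    ∀ (m : ℤ) (z : E.V), z ∈ E.gr m → E.d z = 0 → u.f z = 0 → (T ^ k) z = 0 →
      ∃ w ∈ E.gr (m - 1), u.f w = 0 ∧ E.d w = z := by
  induction k with
  | zero =>
    intro m z _ _ _ h
    rw [pow_zero, Module.End.one_apply] at h
    exact ⟨0, Submodule.zero_mem _, map_zero _, by rw [map_zero, h]⟩
  | succ k ih =>
    intro m z hz hd hu h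
    rw [pow_succ, Module.End.mul_apply] at h
    have h1 := hT m z hz
    rw [hd, map_zero, add_zero, hu, map_zero, sub_zero] at h1
    have h2 : T z = E.d (H z) - z := by rw [h1, add_sub_cancel_left]
    have h3 : T z ∈ E.gr m := by
      rw [h2]
      exact Submodule.sub_mem _ (E.dgr' (by ring) (hH m z hz)) hz
    obtain ⟨w, hw, huw, hdw⟩ := ih m (T z) h3 (by rw [h2, map_sub, E.dd, hd, sub_zero])
      (by rw [h2, map_sub, u.comm, uH m z hz, map_zero, hu, sub_zero]) h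
    refine ⟨H z - w, Submodule.sub_mem _ (hH m z hz) hw, ?_, ?_⟩
    · rw [map_sub, uH m z hz, huw, sub_zero]
    · rw [map_sub, hdw, h2, sub_sub_cancel]

/-- **The perturbation lemma.**  If `u io = 1`, `u H = 0` and `D H + H D = 1 - io u + T` with
`T` nilpotent, then `u` is a quasi-isomorphism.  The map `io` need not commute with the
differentials. -/
theorem qis_of_pert {E N : GD} (u : GD.Hom E N) (io : N.V →ₗ[ℂ] E.V)
    (hio : ∀ m : ℤ, ∀ x ∈ N.gr m, io x ∈ E.gr m) (uio : ∀ m : ℤ, ∀ x ∈ N.gr m, u.f (io x) = x)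
    (H : E.V →ₗ[ℂ] E.V) (hH : ∀ m : ℤ, ∀ x ∈ E.gr m, H x ∈ E.gr (m - 1))
    (uH : ∀ m : ℤ, ∀ x ∈ E.gr m, u.f (H x) = 0)
    (T : E.V →ₗ[ℂ] E.V)
    (hT : ∀ m : ℤ, ∀ x ∈ E.gr m, E.d (H x) + H (E.d x) = x - io (u.f x) + T x) (k : ℕ)
    (hk : ∀ m : ℤ, ∀ x ∈ E.gr m, (T ^ k) x = 0) : GD.Qis u := by
  have key : ∀ (m : ℤ) (z : E.V), z ∈ E.gr m → E.d z = 0 → u.f z = 0 →
      ∃ w ∈ E.gr (m - 1), u.f w = 0 ∧ E.d w = z := fun m z hz hd hu =>
    exact_pert u io H hH uH T hT k m z hz hd hu (hk m z hz)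
  intro m
  refine ⟨?_, ?_⟩
  · rintro x hx hd ⟨y, hy, e⟩
    obtain ⟨w, hw, -, hdw⟩ := key m (x - E.d (io y))
      (Submodule.sub_mem _ hx (E.dgr' (by ring) (hio _ y hy)))
      (by rw [map_sub, hd, E.dd, sub_zero])
      (by rw [map_sub, u.comm, uio _ y hy, e, sub_self])
    exact ⟨w + io y, Submodule.add_mem _ hw (hio _ y hy), by rw [map_add, hdw, sub_add_cancel]⟩
  · intro y hy hd
    obtain ⟨w, hw, huw, hdw⟩ := key (m + 1) (E.d (io y)) (E.dgr m _ (hio m y hy)) (E.dd _)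
      (by rw [u.comm, uio m y hy, hd])
    have hw' : w ∈ E.gr m := by simpa using hw
    refine ⟨io y - w, Submodule.sub_mem _ (hio m y hy) hw', ?_, 0, Submodule.zero_mem _, ?_⟩
    · rw [map_sub, hdw, sub_self]
    · rw [map_zero, map_sub, uio m y hy, huw, sub_zero, sub_self]

end Vale.Agent.P286.H64
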