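import Vale.Agent.P286.H64.Twist
import Vale.Agent.P286.H64.Pert

/-!
# The twisted tensor product with a contractible space

The augmentation `W ⊗ N → N` of the twisted tensor product is a quasi-isomorphism, if `W` has a
contraction onto the line spanned by `one`.
-/

namespace Vale.Agent.P286.H64

open TensorProduct
open Vale.Agent.P286.H847 (GD SGD)
open Vale.Agent.P286.H847.SGD

noncomputable section

namespace LM

variable {n : ℕ}

/-! ### Products of the operators `e i` -/

/-- The product of the operators `e i` along a list. -/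
def eL (N : LM n) : List (Fin n) → N.V → N.V
  | [], x => x
  | i :: l, x => N.e i (eL N l x)

theorem e_eL (N : LM n) (i : Fin n) (l : List (Fin n)) (h : i ∈ l) (x : N.V) :
    N.e i (eL N l x) = 0 := by
  induction l with
  | nil => simp at h
  | cons j l ih =>
    change N.e i (N.e j (eL N l x)) = 0
    by_cases hij : i = j
    · subst hij
      exact N.e_sq i _
    · rw [N.e_e, ih ((List.mem_cons.1 h).resolve_left hij), map_zero, neg_zero]

theorem eL_dup (N : LM n) (l : List (Fin n)) (h : ¬ l.Nodup) (x : N.V) : eL N l x = 0 := by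
  induction l with
  | nil => simp at h
  | cons j l ih =>
    change N.e j (eL N l x) = 0
    by_cases hj : j ∈ l
    · exact e_eL N j l hj x
    · rw [ih (fun h' => h (List.nodup_cons.2 ⟨hj, h'⟩)), map_zero]

theorem eL_length (N : LM n) (l : List (Fin n)) (h : n < l.length) (x : N.V) : eL N l x = 0 :=
  eL_dup N l (fun h' => by
    have := h'.length_le_card
    rw [Fintype.card_fin] at this
    omega) x

/-- An operator which is a sum of `S i ⊗ e i` is nilpotent. -/
theorem pow_zero_of {W : SGD} (N : LM n) (T : Module.End ℂ (W.V ⊗[ℂ] N.V))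
    (S : Fin n → W.V →ₗ[ℂ] W.V)
    (hT : ∀ a x, T (a ⊗ₜ[ℂ] x) = ∑ i, S i a ⊗ₜ[ℂ] N.e i x) (z : W.V ⊗[ℂ] N.V) :
    (T ^ (n + 1)) z = 0 := by
  have key : ∀ (k : ℕ) (a : W.V) (x : N.V),
      (T ^ k) (a ⊗ₜ[ℂ] x) ∈ Submodule.span ℂ {w : W.V ⊗[ℂ] N.V |
        ∃ (l : List (Fin n)) (b : W.V), l.length = k ∧ w = b ⊗ₜ[ℂ] eL N l x} := by
    intro k
    induction k with
    | zero =>
      intro a x
      rw [pow_zero, Module.End.one_apply]
      exact Submodule.subset_span ⟨[], a, rfl, rfl⟩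
    | succ k ih =>
      intro a x
      rw [pow_succ', Module.End.mul_apply]
      have h2 : Submodule.span ℂ {w : W.V ⊗[ℂ] N.V |
          ∃ (l : List (Fin n)) (b : W.V), l.length = k ∧ w = b ⊗ₜ[ℂ] eL N l x} ≤
          (Submodule.span ℂ {w : W.V ⊗[ℂ] N.V |
          ∃ (l : List (Fin n)) (b : W.V), l.length = k + 1 ∧ w = b ⊗ₜ[ℂ] eL N l x}).comap T := by
        refine Submodule.span_le.2 ?_
        rintro w ⟨l, b, hl, rfl⟩
        change T _ ∈ Submodule.span ℂ _
        rw [hT]
        refine Submodule.sum_mem _ fun i _ => Submodule.subset_span ?_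
        exact ⟨i :: l, S i b, by rw [List.length_cons, hl], rfl⟩
      exact h2 (ih a x)
  have h3 : (T ^ (n + 1) : Module.End ℂ (W.V ⊗[ℂ] N.V)) = 0 := by
    refine TensorProduct.ext' fun a x => ?_
    have h4 : Submodule.span ℂ {w : W.V ⊗[ℂ] N.V |
        ∃ (l : List (Fin n)) (b : W.V), l.length = n + 1 ∧ w = b ⊗ₜ[ℂ] eL N l x} ≤ ⊥ := by
      refine Submodule.span_le.2 ?_
      rintro w ⟨l, b, hl, rfl⟩
      rw [eL_length N l (by omega), tmul_zero]
      exact Submodule.zero_mem _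
    rw [LinearMap.zero_apply]
    exact (Submodule.mem_bot ℂ).1 (h4 (key (n + 1) a x))
  rw [h3, LinearMap.zero_apply]

/-! ### The augmentation -/

variable {W : SGD} {Y : Yop n W}

/-- A contraction of `W`. -/
structure Ctr0 (Y : Yop n W) where
  one : W.V
  one_gr : one ∈ W.gr 0
  d_one : W.d one = 0
  eps : W.V →ₗ[ℂ] ℂ
  eps_one : eps one = 1
  eps_d : ∀ a, eps (W.d a) = 0
  eps_y : ∀ i a, eps (Y.y i a) = 0
  eps_sg : ∀ a, eps (W.sg a) = eps a
  eps_gr : ∀ m : ℤ, m ≠ 0 → ∀ a ∈ W.gr m, eps a = 0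
  h : W.V →ₗ[ℂ] W.V
  h_gr : ∀ (m : ℤ) (a : W.V), a ∈ W.gr m → h a ∈ W.gr (m - 1)
  h_sg : ∀ a, h (W.sg a) = - W.sg (h a)
  h_d : ∀ a, W.d (h a) + h (W.d a) = a - eps a • one

/-- The contraction of a structure `Ctr`. -/
def Ctr.toCtr0 (K : Ctr Y) : Ctr0 Y :=
  ⟨K.one, K.one_gr, K.d_one, K.eps, K.eps_one, K.eps_d, K.eps_y, K.eps_sg, K.eps_gr, K.h, K.h_gr,
    K.h_sg, K.h_d⟩

namespace Ctr0

variable (K : Ctr0 Y)

theorem sg_one : W.sg K.one = K.one := W.sg_even K.one_gr Even.zero

/-- The normalized contraction. -/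
def hn : W.V →ₗ[ℂ] W.V := K.h - K.eps.smulRight K.one ∘ₗ K.h

theorem hn_apply (a : W.V) : K.hn a = K.h a - K.eps (K.h a) • K.one := rfl

theorem eps_hn (a : W.V) : K.eps (K.hn a) = 0 := by
  rw [hn_apply, map_sub, map_smul, K.eps_one, smul_eq_mul, mul_one, sub_self]

theorem hn_gr (m : ℤ) (a : W.V) (ha : a ∈ W.gr m) : K.hn a ∈ W.gr (m - 1) := by
  have h1 := K.h_gr m a ha
  rw [hn_apply]
  refine Submodule.sub_mem _ h1 ?_
  by_cases hm : m - 1 = 0
  · rw [hm]
    exact Submodule.smul_mem _ _ K.one_gr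
  · rw [K.eps_gr _ hm _ h1, zero_smul]
    exact zero_mem _

theorem hn_sg (a : W.V) : K.hn (W.sg a) = - W.sg (K.hn a) := by
  rw [hn_apply, hn_apply, K.h_sg, map_neg, map_sub, map_smul, K.eps_sg, K.sg_one, neg_smul]
  abel

theorem hn_d (a : W.V) : W.d (K.hn a) + K.hn (W.d a) = a - K.eps a • K.one := by
  have h1 := K.h_d a
  have h2 : K.eps (K.h (W.d a)) = 0 := by
    have h3 : K.h (W.d a) = a - K.eps a • K.one - W.d (K.h a) := by rw [← h1, add_sub_cancel_left]
    rw [h3, map_sub, map_sub, map_smul, K.eps_one, K.eps_d, smul_eq_mul, mul_one, sub_self,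
      sub_zero]
  rw [hn_apply, hn_apply, h2, zero_smul, sub_zero, map_sub, map_smul, K.d_one, smul_zero, sub_zero,
    h1]

/-- The map `a ⊗ x ↦ eps(a) x`. -/
def epsT (N : GD) : W.V ⊗[ℂ] N.V →ₗ[ℂ] N.V :=
  (TensorProduct.lid ℂ N.V).toLinearMap ∘ₗ TensorProduct.map K.eps LinearMap.id

theorem epsT_tmul (N : GD) (a : W.V) (x : N.V) : K.epsT N (a ⊗ₜ[ℂ] x) = K.eps a • x := by
  rw [epsT, LinearMap.comp_apply, TensorProduct.map_tmul]
  exact TensorProduct.lid_tmul _ _

theorem epsT_td (N : GD) (z : W.V ⊗[ℂ] N.V) : K.epsT N (td W N z) = N.d (K.epsT N z) := by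
  induction z using TensorProduct.induction_on with
  | zero => simp
  | tmul a x =>
    rw [td_tmul, map_add, epsT_tmul, epsT_tmul, epsT_tmul, K.eps_d, K.eps_sg, zero_smul, zero_add,
      map_smul]
  | add a b ha hb => rw [map_add, map_add, map_add, map_add, ha, hb]

theorem epsT_yE (N : LM n) (i : Fin n) (z : W.V ⊗[ℂ] N.V) :
    K.epsT N.toGD (yE Y N i z) = 0 := by
  induction z using TensorProduct.induction_on with
  | zero => simp
  | tmul a x => rw [yE_tmul, epsT_tmul, K.eps_y, zero_smul]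
  | add a b ha hb => rw [map_add, map_add, ha, hb, add_zero]

theorem epsT_mem (N : GD) {m : ℤ} {z : W.V ⊗[ℂ] N.V} (hz : z ∈ tgr W.toGD N m) :
    K.epsT N z ∈ N.gr m := by
  have h : tgr W.toGD N m ≤ (N.gr m).comap (K.epsT N) := by
    refine tgr_le fun i j a x hij ha hx => ?_
    rw [Submodule.mem_comap, epsT_tmul]
    by_cases hi : i = 0
    · subst hi
      rw [← hij, zero_add]
      exact Submodule.smul_mem _ _ hx
    · rw [K.eps_gr i hi a ha, zero_smul]
      exact zero_mem _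
  exact h hz

/-- The augmentation of the untwisted tensor product. -/
abbrev tensEps (N : GD) : GD.Hom (tens W N) N :=
  ⟨K.epsT N, fun z => K.epsT_td N z, fun _ _ hz => K.epsT_mem N hz⟩

/-- The section of the augmentation of the untwisted tensor product. -/
abbrev tensIn (N : GD) : GD.Hom N (tens W N) :=
  ⟨TensorProduct.mk ℂ W.V N.V K.one, fun x => by
    change K.one ⊗ₜ[ℂ] N.d x = td W N (K.one ⊗ₜ[ℂ] x)
    rw [td_tmul, K.d_one, zero_tmul, zero_add, K.sg_one],
   fun m x hx => tmul_mem (zero_add m) K.one_gr hx⟩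

/-- The augmentation of the twisted tensor product. -/
abbrev twEps (N : LM n) : GD.Hom (tw Y N) N.toGD where
  f := K.epsT N.toGD
  comm z := by
    change W.V ⊗[ℂ] N.V at z
    change K.epsT N.toGD (twd Y N z) = _
    rw [twd_apply, map_sub, epsT_td, map_sum, Finset.sum_eq_zero fun i _ => K.epsT_yE N i z,
      sub_zero]
  deg _ _ hz := K.epsT_mem N.toGD hz

theorem twEps_tmul (N : LM n) (a : W.V) (x : N.V) :
    (K.twEps N).f (a ⊗ₜ[ℂ] x) = K.eps a • x := K.epsT_tmul N.toGD a x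

/-- The contraction of the untwisted tensor product. -/
theorem td_hn (N : GD) (z : W.V ⊗[ℂ] N.V) :
    td W N (TensorProduct.map K.hn LinearMap.id z) +
      TensorProduct.map K.hn LinearMap.id (td W N z) = z - K.one ⊗ₜ[ℂ] K.epsT N z := by
  induction z using TensorProduct.induction_on with
  | zero => simp
  | tmul a x =>
    rw [td_tmul, map_tmul, td_tmul, map_add, map_tmul, map_tmul, K.hn_sg, epsT_tmul,
      tmul_smul, smul_tmul', ← sub_tmul, ← K.hn_d, add_tmul, LinearMap.id_apply,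
      LinearMap.id_apply, neg_tmul]
    abel
  | add a b ha hb =>
    rw [map_add, map_add, map_add, map_add, map_add, tmul_add, add_add_add_comm, ha, hb]
    abel

theorem epsT_map_hn (N : GD) (z : W.V ⊗[ℂ] N.V) :
    K.epsT N (TensorProduct.map K.hn LinearMap.id z) = 0 := by
  induction z using TensorProduct.induction_on with
  | zero => simp
  | tmul a x => rw [map_tmul, epsT_tmul, K.eps_hn, zero_smul]
  | add a b ha hb => rw [map_add, map_add, ha, hb, add_zero]

theorem map_hn_mem (N : GD) {m : ℤ} {z : W.V ⊗[ℂ] N.V} (hz : z ∈ tgr W.toGD N m) :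
    TensorProduct.map K.hn LinearMap.id z ∈ tgr W.toGD N (m - 1) := by
  refine map_tgr (T := TensorProduct.map K.hn LinearMap.id) ?_ hz
  intro i j a x hij ha hx
  exact tmul_mem (by rw [← hij]; ring) (K.hn_gr i a ha) hx

/-- The perturbation. -/
def pT (N : LM n) : Module.End ℂ (W.V ⊗[ℂ] N.V) :=
  - ∑ i, TensorProduct.map (Y.y i ∘ₗ W.sg ∘ₗ K.hn + K.hn ∘ₗ Y.y i ∘ₗ W.sg) (N.e i)

theorem pT_tmul (N : LM n) (a : W.V) (x : N.V) : K.pT N (a ⊗ₜ[ℂ] x) =
    ∑ i, (-(Y.y i ∘ₗ W.sg ∘ₗ K.hn + K.hn ∘ₗ Y.y i ∘ₗ W.sg)) a ⊗ₜ[ℂ] N.e i x := by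
  rw [pT, LinearMap.neg_apply, LinearMap.sum_apply, ← Finset.sum_neg_distrib]
  refine Finset.sum_congr rfl fun i _ => ?_
  rw [map_tmul, LinearMap.neg_apply, neg_tmul]

theorem pT_eq (N : LM n) (z : W.V ⊗[ℂ] N.V) : K.pT N z =
    - ∑ i, (yE Y N i (TensorProduct.map K.hn LinearMap.id z) +
      TensorProduct.map K.hn LinearMap.id (yE Y N i z)) := by
  rw [pT, LinearMap.neg_apply, LinearMap.sum_apply]
  congr 1
  refine Finset.sum_congr rfl fun i _ => ?_
  induction z using TensorProduct.induction_on with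
  | zero => simp
  | tmul a x =>
    rw [map_tmul, map_tmul, yE_tmul, yE_tmul, map_tmul, LinearMap.add_apply, add_tmul]
    rfl
  | add a b ha hb => rw [map_add, map_add, map_add, map_add, map_add, ha, hb]; abel

theorem twd_hn (N : LM n) (z : W.V ⊗[ℂ] N.V) :
    twd Y N (TensorProduct.map K.hn LinearMap.id z) +
      TensorProduct.map K.hn LinearMap.id (twd Y N z) =
      z - K.one ⊗ₜ[ℂ] K.epsT N.toGD z + K.pT N z := by
  rw [← K.td_hn N.toGD z, K.pT_eq, twd_apply, twd_apply, map_sub, map_sum, Finset.sum_add_distrib]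
  abel

/-- **The augmentation of the twisted tensor product is a quasi-isomorphism.** -/
theorem twEps_qis (N : LM n) : GD.Qis (K.twEps N) := by
  refine qis_of_pert (K.twEps N) (K.tensIn N.toGD).f (K.tensIn N.toGD).deg ?_
    (TensorProduct.map K.hn LinearMap.id) (fun m z hz => K.map_hn_mem N.toGD hz)
    (fun m z _ => K.epsT_map_hn N.toGD z) (K.pT N) (fun m z _ => K.twd_hn N z) (n + 1)
    (fun m z _ => pow_zero_of N (K.pT N) _ (K.pT_tmul N) z)
  intro m x _
  change K.epsT N.toGD (K.one ⊗ₜ[ℂ] x) = x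
  rw [epsT_tmul, K.eps_one, one_smul]

/-- The augmentation of the untwisted tensor product is a quasi-isomorphism. -/
theorem tensEps_qis (N : GD) : GD.Qis (K.tensEps N) := by
  refine GD.Qis.of_htpy (K.tensEps N) (K.tensIn N) (TensorProduct.map K.hn LinearMap.id)
    (fun m z hz => K.map_hn_mem N hz) (fun m z _ => K.td_hn N z) 0 (fun _ _ _ => zero_mem _) ?_
  intro m x _
  change _ = x - K.epsT N (K.one ⊗ₜ[ℂ] x)
  rw [epsT_tmul, K.eps_one, one_smul, sub_self]
  simp

/-- The section is a quasi-isomorphism. -/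
theorem tensIn_qis (N : GD) : GD.Qis (K.tensIn N) := by
  refine GD.Qis.of_htpy (K.tensIn N) (K.tensEps N) 0 (fun _ _ _ => zero_mem _) ?_
    (TensorProduct.map K.hn LinearMap.id)
    (fun m z hz => K.map_hn_mem N hz) (fun m z _ => K.td_hn N z)
  intro m x _
  change _ = x - K.epsT N (K.one ⊗ₜ[ℂ] x)
  rw [epsT_tmul, K.eps_one, one_smul, sub_self]
  simp

/-- Naturality of the augmentation. -/
theorem epsT_smap {M N : GD} (p : ℤ) (φ : M.V →ₗ[ℂ] N.V) (z : W.V ⊗[ℂ] M.V) :
    K.epsT N (smap W p φ z) = φ (K.epsT M z) := by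
  induction z using TensorProduct.induction_on with
  | zero => simp
  | tmul a x =>
    rw [smap_tmul, epsT_tmul, epsT_tmul, map_smul]
    by_cases h : Even p
    · rw [sgp_even W h]
    · rw [sgp_odd W h, K.eps_sg]
  | add a b ha hb => rw [map_add, map_add, map_add, map_add, ha, hb]

theorem twEps_twMap {M N : LM n} (φ : Hom M N) (z : W.V ⊗[ℂ] M.V) :
    (K.twEps N).f ((twMap Y φ).f z) = φ.f ((K.twEps M).f z) := K.epsT_smap 0 φ.f z

include K in
/-- The twisted tensor product preserves quasi-isomorphisms. -/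
theorem twMap_qis {M N : LM n} (φ : Hom M N) (h : GD.Qis φ.toHom) : GD.Qis (twMap Y φ) := by
  refine GD.Qis.of_comp_left (K.twEps_qis N) ?_
  have e : (K.twEps N).comp (twMap Y φ) = φ.toHom.comp (K.twEps M) :=
    hom_ext fun z => K.twEps_twMap φ z
  rw [e]
  exact h.comp (K.twEps_qis M)

/-- A homomorphism into the twisted tensor product whose composition with the augmentation is a
quasi-isomorphism. -/
theorem qis_of_eps {M : GD} {N : LM n} (u : GD.Hom M (tw Y N))
    (h : GD.Qis ((K.twEps N).comp u)) : GD.Qis u := GD.Qis.of_comp_left (K.twEps_qis N) h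

end Ctr0

end LM

end

end Vale.Agent.P286.H64
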