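import Vale.Agent.P286.H64.CtrW
import Vale.Agent.P286.H44.WkKoz

/-!
# The contraction of the Weil algebra
-/

namespace Vale.Agent.P286.H64

open Vale.Agent.P286.H847 Vale.Agent.P286.H867

noncomputable section

variable {I : Type} [Fintype I] [DecidableEq I]

theorem wkEx : WkEx I := fun _ _ hx hd he => H44.WkM.hex hx hd he

variable (I) in
/-- **The contraction of the Weil algebra.** -/
def ctrW (n : ℕ) : LM.Ctr0 (yop I 0 n) := ctrOf n wkEx

variable {n : ℕ}

theorem ctrW_one : (ctrW I n).one = (1 : Wk I 0) := rfl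

theorem ctrW_eps (w : Wk I 0) : (ctrW I n).eps w = Wk.eps I 0 w := rfl

theorem tw_qis {M N : LM n} (φ : LM.Hom M N) (h : GD.Qis φ.toHom) :
    GD.Qis (LM.twMap (yop I 0 n) φ) := (ctrW I n).twMap_qis φ h

end

end Vale.Agent.P286.H64
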