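import Vale.Agent.P286.H64.Twist0
import Vale.Agent.P286.H389.Tht2

/-!
# The augmentation of `Theta(N)` at a point
-/

namespace Vale.Agent.P286.H64

open CategoryTheory TensorProduct
open Vale.Agent.P286.H847 (GD SGD)
open Vale.Agent.P286.H847.SGD
open Vale.Agent.P286.H710 (Om OmS sgO)
open Vale.Agent.P286.H389

noncomputable section

section Aug

variable {A : Type} [CommRing A] [Algebra ℂ A] (aug : A →ₐ[ℂ] ℂ) (G : GD)

/-- The map `a ⊗ x ↦ aug(a) x`. -/
def augT : A ⊗[ℂ] G.V →ₗ[ℂ] G.V :=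
  (TensorProduct.lid ℂ G.V).toLinearMap ∘ₗ TensorProduct.map aug.toLinearMap LinearMap.id

theorem augT_tmul (a : A) (x : G.V) : augT aug G (a ⊗ₜ[ℂ] x) = aug a • x := by
  rw [augT, LinearMap.comp_apply, TensorProduct.map_tmul]
  exact TensorProduct.lid_tmul _ _

/-- The homomorphism `A ⊗ G → G`. -/
abbrev augX : GD.Hom (AX A G) G where
  f := augT aug G
  comm z := by
    change A ⊗[ℂ] G.V at z
    change augT aug G (G.d.lTensor A z) = G.d (augT aug G z)
    induction z using TensorProduct.induction_on with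
    | zero => simp only [map_zero]
    | tmul a x => rw [LinearMap.lTensor_tmul, augT_tmul, augT_tmul, map_smul]
    | add a b ha hb => rw [map_add, map_add, map_add, map_add, ha, hb]
  deg m z hz := lG_le (u := augT aug G) (fun a x hx => by
    rw [augT_tmul]
    exact Submodule.smul_mem _ _ hx) z hz

theorem augX_tmul (a : A) (x : G.V) : (augX aug G).f (a ⊗ₜ[ℂ] x) = aug a • x := augT_tmul aug G a x

/-- The homomorphism `x ↦ 1 ⊗ x`. -/
abbrev oneX (A : Type) [CommRing A] [Algebra ℂ A] (G : GD) : GD.Hom G (AX A G) where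
  f := TensorProduct.mk ℂ A G.V 1
  comm _ := rfl
  deg _ _ hx := tmul_lG 1 hx

theorem augX_oneX (x : G.V) : (augX aug G).f ((oneX A G).f x) = x := by
  change augT aug G ((1 : A) ⊗ₜ[ℂ] x) = x
  rw [augT_tmul, map_one, one_smul]

variable (h : ∀ a, algebraMap ℂ A (aug a) = a)

include h in
theorem oneX_augX (z : A ⊗[ℂ] G.V) : (oneX A G).f ((augX aug G).f z) = z := by
  change (1 : A) ⊗ₜ[ℂ] augT aug G z = z
  induction z using TensorProduct.induction_on with
  | zero => rw [map_zero, tmul_zero]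
  | tmul a x =>
    rw [augT_tmul, tmul_smul, smul_tmul', ← Algebra.algebraMap_eq_smul_one, h]
  | add a b ha hb => rw [map_add, tmul_add, ha, hb]

include h in
theorem augX_qis : GD.Qis (augX aug G) :=
  GD.Qis.of_htpy (augX aug G) (oneX A G) 0 (fun _ _ _ => zero_mem _) (fun _ x _ => by
      rw [oneX_augX aug G h, sub_self]
      simp) 0 (fun _ _ _ => zero_mem _) (fun _ x _ => by
      rw [augX_oneX, sub_self]
      simp)

end Aug

section Theta

variable {n : ℕ} {W : SGD} (Y : LM.Yop n W) (N : LM n) {A : Type} [CommRing A] [Algebra ℂ A]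

/-- The value of degree zero on the diagonal. -/
def fromTh (b : DB A) : GD.Hom (JG (thA Y N A)) (AX A (LM.tw Y N)) :=
  (thP Y N b).ofJG (AX A (LM.tw Y N)) (inT W N A) (outT W N A) (fun x => inT_outT N b x)
    (fun x => outT_inT N x) (fun z => inT_d Y N z) (fun m z hz => outT_mem N m z hz)

/-- The value on the diagonal of a jet. -/
def evTh : (JG (thA Y N A)).V →ₗ[ℂ] TV W N A := J.ev (A := A) (V := (thA Y N A).V)

theorem fromTh_f (b : DB A) (x : (JG (thA Y N A)).V) :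
    (fromTh Y N b).f x = outT W N A (evTh Y N x) := rfl

theorem fromTh_toTh (b : DB A) (z : A ⊗[ℂ] (W.V ⊗[ℂ] N.V)) :
    (fromTh Y N b).f ((toTh Y N b).f z) = z := by
  have e : evTh Y N ((toTh Y N b).f z) = thPr W N A (inT W N A z) :=
    (thP Y N b).C.ev_T b (inT W N A z : (thA Y N A).V)
  rw [fromTh_f, e, ← inT_outT N b, outT_inT, outT_inT]

theorem fromTh_qis (b : DB A) : GD.Qis (fromTh Y N b) := by
  refine GD.Qis.of_comp_right (qis_toTh Y N b) ?_
  have e : (fromTh Y N b).comp (toTh Y N b) = GD.Hom.id _ :=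
    hom_ext fun z => fromTh_toTh Y N b z
  rw [e]
  exact GD.Qis.id _

variable {Y}

/-- **The augmentation of `Theta(N)`**, for an algebra with an augmentation. -/
def epsA (K : LM.Ctr0 Y) (b : DB A) (aug : A →ₐ[ℂ] ℂ) : GD.Hom (JG (thA Y N A)) N.toGD :=
  (K.twEps N).comp ((augX aug (LM.tw Y N)).comp (fromTh Y N b))

theorem epsA_f (K : LM.Ctr0 Y) (b : DB A) (aug : A →ₐ[ℂ] ℂ) (x : (JG (thA Y N A)).V) :
    (epsA N K b aug).f x =
      K.epsT N.toGD (augT aug (LM.tw Y N) (outT W N A (evTh Y N x))) := rfl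

/-- **The augmentation of `Theta(N)` at a point is a quasi-isomorphism.** -/
theorem epsA_qis (K : LM.Ctr0 Y) (b : DB A) (aug : A →ₐ[ℂ] ℂ)
    (h : ∀ a, algebraMap ℂ A (aug a) = a) : GD.Qis (epsA N K b aug) :=
  (K.twEps_qis N).comp ((augX_qis aug (LM.tw Y N) h).comp (fromTh_qis Y N b))

/-- The value on the elements `a ⊗ z`. -/
theorem epsA_toTh (K : LM.Ctr0 Y) (b : DB A) (aug : A →ₐ[ℂ] ℂ) (a : A) (z : W.V ⊗[ℂ] N.V) :
    (epsA N K b aug).f ((toTh Y N b).f (a ⊗ₜ[ℂ] z)) = aug a • K.epsT N.toGD z := by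
  change K.epsT N.toGD (augT aug (LM.tw Y N)
    ((fromTh Y N b).f ((toTh Y N b).f (a ⊗ₜ[ℂ] z)))) = _
  rw [fromTh_toTh]
  have e := augT_tmul aug (LM.tw Y N) a z
  rw [e, map_smul]

/-- The value on the jets of elements `w ⊗ (u ⊗ x)`. -/
theorem epsA_of (K : LM.Ctr0 Y) (b : DB A) (aug : A →ₐ[ℂ] ℂ) (a : A) (w : W.V) (u : Om ℂ A)
    (x : N.V) :
    (epsA N K b aug).f (Cmp.of (FJ A (thA Y N A).V)
      (a ⊗ₜ[ℂ] (w ⊗ₜ[ℂ] (u ⊗ₜ[ℂ] x) : (thA Y N A).V))) =
      (aug a * aug (outO A u) * K.eps w) • x := by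
  have e1 : evTh Y N (Cmp.of (FJ A (thA Y N A).V)
      (a ⊗ₜ[ℂ] (w ⊗ₜ[ℂ] (u ⊗ₜ[ℂ] x) : (thA Y N A).V))) = w ⊗ₜ[ℂ] ((a • u) ⊗ₜ[ℂ] x) := rfl
  have e2 : outO A (a • u) = a * outO A u :=
    map_smul (ExteriorAlgebra.algebraMapInv (R := A) (M := Ω[A⁄ℂ])) a u
  rw [epsA_f, e1, outT_tmul, e2]
  have e3 := augT_tmul aug (LM.tw Y N) (a * outO A u) (w ⊗ₜ[ℂ] x)
  rw [e3, map_smul, K.epsT_tmul, smul_smul, map_mul]

end Theta

end

end Vale.Agent.P286.H64
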