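import Vale.Agent.P286.H64.EpsPt
import Vale.Agent.P286.H389.ThD
import Vale.Agent.P286.H295.Coprod

/-!
# Naturality of the augmentation of `Theta(N)` at a point
-/

namespace Vale.Agent.P286.H64

open CategoryTheory TensorProduct
open Vale.Agent.P286.Gen (Gps BGT)
open Vale.Agent.P286.H847 (GD SGD GTD)
open Vale.Agent.P286.H847.SGD
open Vale.Agent.P286.H710 (Om OmS sgO)
open Vale.Agent.P286.H295 (BPt)
open Vale.Agent.P286.H389

noncomputable section

section Theta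

variable {n : ℕ} {W : SGD} {Y : LM.Yop n W} {N N' : LM n} {A : Type} [CommRing A] [Algebra ℂ A]

theorem evTh_jz (p : ℤ) (φ : N.V →ₗ[ℂ] N'.V) (x : (JG (thA Y N A)).V) :
    evTh Y N' (jz Y A p φ x) = thz W A p φ (evTh Y N x) :=
  J.ev_map (thl Y A p φ) (fun a x => thz_tvs p φ a x) x

theorem evTh_fn (a : A) (x : (JG (thA Y N A)).V) :
    evTh Y N (J.fn a x) = tvs W N a (evTh Y N x) := J.ev_fn a x

theorem outO_sg (u : Om ℂ A) : outO A (Om.sg u) = outO A u := by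
  induction u using DirectSum.Decomposition.inductionOn (fun i => ⋀[A]^i (Ω[A⁄ℂ])) with
  | zero => simp
  | @homogeneous i m =>
    by_cases h : i = 0
    · subst h
      obtain ⟨a, ha⟩ := Om.gr_zero m.2
      have e : Om.sg (m : Om ℂ A) = m := by
        rw [← ha]
        exact AlgHom.commutes _ a
      rw [e]
    · rw [outO_of_pos h m.2, outO_of_pos h (H710.Om.sg_mem m.2)]
  | add m m' h1 h2 => rw [map_add, map_add, h1, h2, map_add]

theorem outO_sgp (p : ℤ) (u : Om ℂ A) : outO A (sgp (OmS A) p u : Om ℂ A) = outO A u := by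
  by_cases h : Even p
  · rw [sgp_even _ h]
  · rw [sgp_odd _ h]
    exact outO_sg u

variable (K : LM.Ctr0 Y) (aug : A →ₐ[ℂ] ℂ)

/-- The map `w ⊗ (u ⊗ x) ↦ aug(u₀) eps(w) x`. -/
def epsV (N : LM n) : TV W N A →ₗ[ℂ] N.V :=
  K.epsT N.toGD ∘ₗ augT aug (LM.tw Y N) ∘ₗ outT W N A

theorem epsV_tmul (w : W.V) (u : Om ℂ A) (x : N.V) :
    epsV K aug N (w ⊗ₜ (u ⊗ₜ x)) = (aug (outO A u) * K.eps w) • x := by
  change K.epsT N.toGD (augT aug (LM.tw Y N) (outT W N A (w ⊗ₜ (u ⊗ₜ x)))) = _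
  rw [outT_tmul]
  have e3 := augT_tmul aug (LM.tw Y N) (outO A u) (w ⊗ₜ[ℂ] x)
  rw [e3, map_smul, K.epsT_tmul, smul_smul]

theorem epsA_eq (b : DB A) (x : (JG (thA Y N A)).V) :
    (epsA N K b aug).f x = epsV K aug N (evTh Y N x) := rfl

theorem epsV_thz (p : ℤ) (φ : N.V →ₗ[ℂ] N'.V) (z : TV W N A) :
    epsV K aug N' (thz W A p φ z) = φ (epsV K aug N z) := by
  induction z using TV.ind with
  | zero => simp only [map_zero]
  | tmul w u x =>
    have h1 : K.eps (sgp W p w) = K.eps w := by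
      by_cases h : Even p
      · rw [sgp_even W h]
      · rw [sgp_odd W h, K.eps_sg]
    rw [thz_tmul]
    have h2 := epsV_tmul K aug (N := N') (sgp W p w) (sgp (OmS A) p u) (φ x)
    rw [h2, epsV_tmul, outO_sgp, h1, map_smul]
  | add x y hx hy => simp only [map_add, hx, hy]

theorem epsV_iot (z : W.V ⊗[ℂ] N.V) : epsV K aug N (iot W N A z) = K.epsT N.toGD z := by
  induction z using TensorProduct.induction_on with
  | zero => simp only [map_zero]
  | tmul w x =>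
    have h : outO A (1 : Om ℂ A) = 1 :=
      map_one (ExteriorAlgebra.algebraMapInv (R := A) (M := Ω[A⁄ℂ]))
    rw [iot_tmul, epsV_tmul, h, map_one, one_mul, K.epsT_tmul]
  | add x y hx hy => simp only [map_add, hx, hy]

/-- **The augmentation is natural for cochains of every degree.** -/
theorem epsA_jz (b : DB A) (p : ℤ) (φ : N.V →ₗ[ℂ] N'.V) (x : (JG (thA Y N A)).V) :
    (epsA N' K b aug).f (jz Y A p φ x) = φ ((epsA N K b aug).f x) := by
  rw [epsA_eq, epsA_eq, evTh_jz, epsV_thz]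

theorem epsA_cst (b : DB A) (z : W.V ⊗[ℂ] N.V) :
    (epsA N K b aug).f (cst Y N A z) = K.epsT N.toGD z := by
  have h1 : ∀ z, tvs W N (1 : A) (iot W N A z) = iot W N A z := by
    intro z
    induction z using TensorProduct.induction_on with
    | zero => simp only [map_zero]
    | tmul w x => rw [iot_tmul, tvs_tmul, one_smul]
    | add x y hx hy => simp only [map_add, hx, hy]
  have e : evTh Y N (cst Y N A z) = tvs W N 1 (iot W N A z) := rfl
  rw [epsA_eq, e, h1, epsV_iot]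

end Theta

section Pt

variable {n m : ℕ} {Γ : Gps m} {W : SGD} {Y : LM.Yop n W}

/-- The augmentation of the algebra of the point. -/
def augPt (Γ : Gps m) : (BPt Γ).A.R →ₐ[ℂ] ℂ := AlgHom.id ℂ ℂ

theorem alg_augPt (a : (BPt Γ).A.R) : algebraMap ℂ (BPt Γ).A.R (augPt Γ a) = a := rfl

/-- The augmentation of `Theta(N)` at the point of the classifying stack. -/
def epsPt (K : LM.Ctr0 Y) (Γ : Gps m) (N : LM n) :
    GD.Hom (JG (thA Y N (BPt Γ).A.R)) N.toGD :=
  epsA N K (DB.some (BPt Γ).A.R) (augPt Γ)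

theorem epsPt_f (K : LM.Ctr0 Y) (N : LM n) (x : (JG (thA Y N (BPt Γ).A.R)).V) :
    (epsPt K Γ N).f x = epsV K (augPt Γ) N (evTh Y N x) := rfl

theorem epsPt_qis (K : LM.Ctr0 Y) (N : LM n) : GD.Qis (epsPt K Γ N) :=
  epsA_qis N K (DB.some (BPt Γ).A.R) (augPt Γ) alg_augPt

theorem epsPt_jz (K : LM.Ctr0 Y) {N N' : LM n} (p : ℤ) (φ : N.V →ₗ[ℂ] N'.V)
    (x : (JG (thA Y N (BPt Γ).A.R)).V) :
    (epsPt K Γ N').f (jz Y (BPt Γ).A.R p φ x) = φ ((epsPt K Γ N).f x) :=
  epsA_jz K (augPt Γ) (DB.some (BPt Γ).A.R) p φ x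

theorem epsPt_cst (K : LM.Ctr0 Y) (N : LM n) (z : W.V ⊗[ℂ] N.V) :
    (epsPt K Γ N).f (cst Y N (BPt Γ).A.R z) = K.epsT N.toGD z :=
  epsA_cst K (augPt Γ) (DB.some (BPt Γ).A.R) z

end Pt

end

end Vale.Agent.P286.H64
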