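import Vale.Agent.P286.H64.Twist0
import Vale.Agent.P286.H166.Wk1

/-!
# The contraction of an augmented space with exact kernel
-/

namespace Vale.Agent.P286.H64

open TensorProduct
open Vale.Agent.P286.H847 (GD SGD)
open Vale.Agent.P286.H847.SGD

noncomputable section

/-- A linear map which vanishes on all homogeneous elements. -/
theorem ext_gr {V V' : Type} [AddCommGroup V] [Module ℂ V] [AddCommGroup V'] [Module ℂ V']
    (G : ℤ → Submodule ℂ V) (hG : ⨆ m, G m = ⊤) {u v : V →ₗ[ℂ] V'}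
    (h : ∀ m, ∀ x ∈ G m, u x = v x) (x : V) : u x = v x := by
  have h1 : x ∈ ⨆ m, G m := hG ▸ Submodule.mem_top
  have h2 : ⨆ m, G m ≤ LinearMap.ker (u - v) :=
    iSup_le fun m x hx => by
      rw [LinearMap.mem_ker, LinearMap.sub_apply, h m x hx, sub_self]
  have h3 := h2 h1
  rwa [LinearMap.mem_ker, LinearMap.sub_apply, sub_eq_zero] at h3

section

variable (W : SGD) (eps : W.V →ₗ[ℂ] ℂ) (eps_d : ∀ a, eps (W.d a) = 0)

/-- The kernel of the augmentation. -/
def kerGD : GD where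
  V := LinearMap.ker eps
  d := W.d.restrict (p := LinearMap.ker eps) (q := LinearMap.ker eps) (fun x _ => eps_d x)
  dd x := Subtype.ext (W.dd x.1)
  gr m := (W.gr m).comap (LinearMap.ker eps).subtype
  dgr m x hx := W.dgr m x.1 hx

/-- The inclusion of the kernel. -/
def kerVal : (kerGD W eps eps_d).V →ₗ[ℂ] W.V := (LinearMap.ker eps).subtype

theorem kerVal_inj {x y : (kerGD W eps eps_d).V} (h : kerVal W eps eps_d x = kerVal W eps eps_d y) :
    x = y := Subtype.ext h

theorem kerVal_d (x : (kerGD W eps eps_d).V) :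
    kerVal W eps eps_d ((kerGD W eps eps_d).d x) = W.d (kerVal W eps eps_d x) := rfl

theorem kerVal_gr {m : ℤ} {x : (kerGD W eps eps_d).V} :
    x ∈ (kerGD W eps eps_d).gr m ↔ kerVal W eps eps_d x ∈ W.gr m := Iff.rfl

theorem kerGD_internal (hint : DirectSum.IsInternal W.gr)
    (eps_gr : ∀ m : ℤ, m ≠ 0 → ∀ a ∈ W.gr m, eps a = 0) :
    DirectSum.IsInternal (kerGD W eps eps_d).gr := by
  classical
  rw [DirectSum.isInternal_submodule_iff_iSupIndep_and_iSup_eq_top] at hint ⊢
  refine ⟨?_, ?_⟩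
  · intro m
    have h := hint.1 m
    rw [Submodule.disjoint_def] at h ⊢
    intro x hx hx'
    refine Subtype.ext (h x.1 hx ?_)
    have h2 : (⨆ (j) (_ : j ≠ m), (kerGD W eps eps_d).gr j) ≤
        (⨆ (j) (_ : j ≠ m), W.gr j).comap (LinearMap.ker eps).subtype := by
      refine iSup_le fun j => iSup_le fun hj => ?_
      intro y hy
      exact (le_iSup_of_le (f := fun j => ⨆ (_ : j ≠ m), W.gr j) j
        (le_iSup (fun _ : j ≠ m => W.gr j) hj)) hy
    exact h2 hx'
  · rw [eq_top_iff]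
    rintro ⟨x, hx⟩ -
    have h1 : x ∈ ⨆ m, W.gr m := hint.2 ▸ Submodule.mem_top
    obtain ⟨f, hf⟩ := (Submodule.mem_iSup_iff_exists_dfinsupp' _ _).1 h1
    have h0 : ∀ m, eps (f m : W.V) = 0 := by
      intro m
      by_cases hm : m = 0
      · subst hm
        have h2 : eps x = 0 := hx
        rw [← hf, DFinsupp.sum, map_sum] at h2
        rw [← h2]
        by_cases h3 : (0 : ℤ) ∈ f.support
        · rw [Finset.sum_eq_single_of_mem 0 h3]
          intro j _ hj
          exact eps_gr j hj _ (f j).2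
        · rw [DFinsupp.notMem_support_iff] at h3
          rw [h3, Submodule.coe_zero, map_zero, eq_comm]
          refine Finset.sum_eq_zero fun j hj => ?_
          by_cases hj0 : j = 0
          · subst hj0
            rw [h3, Submodule.coe_zero, map_zero]
          · exact eps_gr j hj0 _ (f j).2
      · exact eps_gr m hm _ (f m).2
    have h4 : (⟨x, hx⟩ : LinearMap.ker eps) = ∑ m ∈ f.support, ⟨(f m : W.V), h0 m⟩ := by
      refine Subtype.ext ?_
      rw [AddSubmonoidClass.coe_finsetSum]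
      exact hf.symm
    have h5 : (⟨x, hx⟩ : LinearMap.ker eps) ∈ ⨆ m, (kerGD W eps eps_d).gr m := by
      rw [h4]
      refine Submodule.sum_mem _ fun m _ => ?_
      exact (le_iSup (kerGD W eps eps_d).gr m) (f m).2
    exact h5

/-- **The contraction.** -/
theorem exists_h (hint : DirectSum.IsInternal W.gr) (one : W.V) (one_gr : one ∈ W.gr 0)
    (d_one : W.d one = 0) (eps_one : eps one = 1)
    (eps_gr : ∀ m : ℤ, m ≠ 0 → ∀ a ∈ W.gr m, eps a = 0) (eps_d : ∀ a, eps (W.d a) = 0)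
    (hex : ∀ (m : ℤ) (x : W.V), x ∈ W.gr m → W.d x = 0 → eps x = 0 →
      ∃ y ∈ W.gr (m - 1), W.d y = x) :
    ∃ h : W.V →ₗ[ℂ] W.V, (∀ (m : ℤ) (a : W.V), a ∈ W.gr m → h a ∈ W.gr (m - 1)) ∧
      (∀ a, h (W.sg a) = - W.sg (h a)) ∧ ∀ a, W.d (h a) + h (W.d a) = a - eps a • one := by
  have hK : (kerGD W eps eps_d).Exact := by
    intro m x hx hd
    obtain ⟨y, hy, e⟩ := hex m x.1 hx (congrArg Subtype.val hd) x.2
    have h1 : y - eps y • one ∈ LinearMap.ker eps := by
      rw [LinearMap.mem_ker, map_sub, map_smul, eps_one, smul_eq_mul, mul_one, sub_self]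
    refine ⟨(⟨y - eps y • one, h1⟩ : LinearMap.ker eps), ?_, Subtype.ext ?_⟩
    · change y - eps y • one ∈ W.gr (m - 1)
      refine Submodule.sub_mem _ hy ?_
      by_cases hm : m - 1 = 0
      · rw [hm]
        exact Submodule.smul_mem _ _ one_gr
      · rw [eps_gr _ hm _ hy, zero_smul]
        exact zero_mem _
    · change W.d (y - eps y • one) = x.1
      rw [map_sub, map_smul, d_one, smul_zero, sub_zero, e]
  obtain ⟨s, hs, hs'⟩ := GD.Exact.exists_contraction _ (kerGD_internal W eps eps_d hint eps_gr) hK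
  obtain ⟨pr, pr_val⟩ : ∃ pr : W.V →ₗ[ℂ] (kerGD W eps eps_d).V,
      ∀ a, kerVal W eps eps_d (pr a) = a - eps a • one :=
    ⟨(LinearMap.id - eps.smulRight one).codRestrict (LinearMap.ker eps) (fun a => by
      rw [LinearMap.mem_ker, LinearMap.sub_apply, LinearMap.id_apply, LinearMap.smulRight_apply,
        map_sub, map_smul, eps_one, smul_eq_mul, mul_one, sub_self]), fun _ => rfl⟩
  have pr_gr : ∀ m a, a ∈ W.gr m → pr a ∈ (kerGD W eps eps_d).gr m := by
    intro m a ha
    rw [kerVal_gr, pr_val]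
    refine Submodule.sub_mem _ ha ?_
    by_cases hm : m = 0
    · rw [hm]
      exact Submodule.smul_mem _ _ one_gr
    · rw [eps_gr _ hm _ ha, zero_smul]
      exact zero_mem _
  have pr_d : ∀ a, pr (W.d a) = (kerGD W eps eps_d).d (pr a) := by
    intro a
    refine kerVal_inj W eps eps_d ?_
    rw [kerVal_d, pr_val, pr_val, map_sub, map_smul, d_one, smul_zero, eps_d, zero_smul]
  obtain ⟨h, hh⟩ : ∃ h : W.V →ₗ[ℂ] W.V, ∀ a, h a = kerVal W eps eps_d (s (pr a)) :=
    ⟨kerVal W eps eps_d ∘ₗ s ∘ₗ pr, fun _ => rfl⟩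
  have h_gr : ∀ (m : ℤ) (a : W.V), a ∈ W.gr m → h a ∈ W.gr (m - 1) := by
    intro m a ha
    rw [hh, ← kerVal_gr]
    exact hs m _ (pr_gr m a ha)
  refine ⟨h, h_gr, ?_, ?_⟩
  · have htop := ((DirectSum.isInternal_submodule_iff_iSupIndep_and_iSup_eq_top _).1 hint).2
    intro a
    refine ext_gr W.gr htop (u := h ∘ₗ W.sg) (v := - (W.sg ∘ₗ h)) ?_ a
    intro m x hx
    rw [LinearMap.comp_apply, LinearMap.neg_apply, LinearMap.comp_apply]
    by_cases hm : Even m
    · rw [W.sg_even hx hm, W.sg_odd (h_gr m x hx) (by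
        rw [Int.odd_sub]; simp [Int.not_odd_iff_even.2 hm]), neg_neg]
    · have hm' : Odd m := Int.not_even_iff_odd.1 hm
      rw [W.sg_odd hx hm', W.sg_even (h_gr m x hx) (by
        rw [Int.even_sub]; simp [hm]), map_neg]
  · intro a
    rw [hh, hh, pr_d, ← kerVal_d, ← map_add, hs', pr_val]

end

end

end Vale.Agent.P286.H64
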