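import Vale.Agent.P286.H64.CtrH
import Vale.Agent.P286.H166.Wk2
import Vale.Agent.P286.H867.Yop

/-!
# The contraction of the Weil algebra, from the exactness of the kernel of the augmentation
-/

namespace Vale.Agent.P286.H64

open TensorProduct
open Vale.Agent.P286.H847 Vale.Agent.P286.H867

noncomputable section

variable {I : Type} [Fintype I] [DecidableEq I]

/-- The kernel of the augmentation of `W` is exact. -/
def WkEx (I : Type) [Fintype I] [DecidableEq I] : Prop :=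
  ∀ (m : ℤ) (x : Wk I 0), x ∈ Wk.gr I 0 m → Wk.d I 0 x = 0 → Wk.eps I 0 x = 0 →
      ∃ y ∈ Wk.gr I 0 (m - 1), Wk.d I 0 y = x

theorem exists_hW (hex : WkEx I) :
    ∃ h : Wk I 0 →ₗ[ℂ] Wk I 0, (∀ (m : ℤ) (a : Wk I 0), a ∈ Wk.gr I 0 m → h a ∈ Wk.gr I 0 (m - 1)) ∧
      (∀ a, h (Wk.sg I 0 a) = - Wk.sg I 0 (h a)) ∧
      ∀ a, Wk.d I 0 (h a) + h (Wk.d I 0 a) = a - Wk.eps I 0 a • (1 : Wk I 0) :=
  exists_h (WK I 0) (Wk.eps I 0).toLinearMap Wk.gr_internal (1 : Wk I 0) Wk.one_gr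
    Wk.d_one (map_one (Wk.eps I 0)) (fun _ hm _ ha => Wk.eps_gr hm ha) (fun a => Wk.eps_d a) hex

/-- The contraction of `W`, from the exactness of the kernel of the augmentation. -/
def ctrOf (n : ℕ) (hex : WkEx I) : LM.Ctr0 (yop I 0 n) where
  one := (1 : Wk I 0)
  one_gr := Wk.one_gr
  d_one := Wk.d_one
  eps := (Wk.eps I 0).toLinearMap
  eps_one := map_one (Wk.eps I 0)
  eps_d := Wk.eps_d
  eps_y i a := by
    change Wk.eps I 0 (yel I 0 i * (a : Wk I 0)) = 0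
    rw [map_mul, eps_yel, zero_mul]
  eps_sg := Wk.eps_sg
  eps_gr _ hm _ ha := Wk.eps_gr hm ha
  h := (exists_hW hex).choose
  h_gr := (exists_hW hex).choose_spec.1
  h_sg := (exists_hW hex).choose_spec.2.1
  h_d := (exists_hW hex).choose_spec.2.2

end

end Vale.Agent.P286.H64
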