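import Vale.Agent.P286.H64.EpsN
import Vale.Agent.P286.H64.WInst
import Vale.Agent.P286.H549.OmPt
import Vale.Agent.P286.H867.PiL

/-!
# The augmentation of `Theta(N)` at a point and the projection of forms to the coefficient
-/

namespace Vale.Agent.P286.H64

open CategoryTheory TensorProduct
open Vale.Agent.P286.H847 (GD SGD Wk WK)
open Vale.Agent.P286.H847.SGD
open Vale.Agent.P286.H710 (Om OmS sgO)
open Vale.Agent.P286.H389
open Vale.Agent.P286.H549 (epsC epsO epsC_tmul jC qis_jC epsC_jC jC_epsC)
open Vale.Agent.P286.H867 (epV epV_tmul)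

noncomputable section

section C

variable {A : Type} [CommRing A] [Algebra ℂ A] (hA : ∀ a : A, ∃ c : ℂ, algebraMap ℂ A c = a)
  (aug : A →ₐ[ℂ] ℂ)

theorem epsO_eq (u : Om ℂ A) : epsO aug u = aug (outO A u) := rfl

/-- The projection of the forms to the coefficient is a quasi-isomorphism over a point. -/
theorem qis_epsC {n : ℕ} (N : LM n) : GD.Qis (epsC hA aug N.toGD) :=
  H549.qis_of_inv _ (jC A N).toHom (epsC_jC hA aug N) (jC_epsC hA aug N)

variable (I : Type) [Fintype I] [DecidableEq I] (n : ℕ)

/-- **The projection of the augmentation.** -/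
theorem epsC_epV (N : LM n) (z : Wk I 0 ⊗[ℂ] (Om ℂ A ⊗[ℂ] N.V)) :
    (epsC hA aug N.toGD).f (epV I 0 (Om ℂ A ⊗[ℂ] N.V) z) = epsV (ctrW I n) aug N z := by
  induction z using TensorProduct.induction_on with
  | zero =>
    rw [map_zero]
    exact (map_zero _).trans (map_zero _).symm
  | tmul w y =>
    induction y using TensorProduct.induction_on with
    | zero =>
      rw [tmul_zero, map_zero]
      exact (map_zero _).trans (map_zero _).symm
    | tmul u x =>
      have h1 := epsV_tmul (ctrW I n) aug (N := N) w u x
      rw [h1, epV_tmul]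
      refine (map_smul (epsC hA aug N.toGD).f _ _).trans ?_
      rw [epsC_tmul, epsO_eq, smul_smul, mul_comm]
      rfl
    | add a b ha hb =>
      rw [tmul_add, map_add]
      refine (map_add (epsC hA aug N.toGD).f _ _).trans ?_
      rw [ha, hb]
      exact (map_add (epsV (ctrW I n) aug N) _ _).symm
  | add a b ha hb =>
    rw [map_add]
    refine (map_add (epsC hA aug N.toGD).f _ _).trans ?_
    rw [ha, hb]
    exact (map_add (epsV (ctrW I n) aug N) _ _).symm

end C

end

end Vale.Agent.P286.H64
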