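import Vale.Agent.P286.H64.Twist0
import Vale.Agent.P286.H549.TwLM

/-!
# The exponentials of `H64.Twist` and of `H549.TwLM`
-/

namespace Vale.Agent.P286.H64

open TensorProduct
open Vale.Agent.P286.H847 (GD SGD)
open Vale.Agent.P286.H847.SGD

noncomputable section

namespace LM

variable {n : ℕ} {W : SGD} {Y : Yop n W}

theorem Cop.to549 (C : Cop Y) : H549.Cop Y C.c :=
  ⟨C.sg_c, C.c_d, C.c_c, C.c_y, C.c_gr⟩

/-- Operators in the sense of `H549.Cop`. -/
def Cop.of549 {c : Fin n → W.V →ₗ[ℂ] W.V} (h : H549.Cop Y c) : Cop Y :=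
  ⟨c, h.c_c, h.d_c, fun i x => by rw [h.s_c, neg_neg], h.y_c, h.c_gr⟩

theorem exH_eq (C : Cop Y) (N : LM n) : (H549.exH C.to549 N).f = cX C N := rfl

theorem exI_eq (C : Cop Y) (N : LM n) : (H549.exI C.to549 N).f = cN C N := rfl

theorem etaH_eq (K : Ctr Y) (N : LM n) :
    H549.etaH K.toCop.to549 N K.one K.d_one K.sg_one K.one_gr = twIn K N := rfl

theorem epsH_eq (K : Ctr0 Y) (N : LM n) :
    H549.epsH Y N K.eps K.eps_d K.eps_sg K.eps_y K.eps_gr = K.twEps N := rfl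

/-- The augmentation `epsH` is a quasi-isomorphism. -/
theorem qis_epsH (K : Ctr0 Y) (N : LM n) :
    GD.Qis (H549.epsH Y N K.eps K.eps_d K.eps_sg K.eps_y K.eps_gr) := K.twEps_qis N

end LM

end

end Vale.Agent.P286.H64
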